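import Vale.Agent.P016.FE.LD

/-!
# Simultaneous primitive roots, part A: primes in a class, no condition modulo 4

As `FE/LB`, for all classes `R` modulo `D`, `4 ∣ D`, with `R` prime to `D` and `R` not `1` modulo
the odd primes dividing `D`.
-/

open Finset Real Filter

namespace Vale.Agent.P016.FE.H250

open Vale.Agent.P013.J

/-- admissible classes, no condition modulo 4 -/
def AdmG (D R : ℕ) : Prop := R < D ∧ Nat.Coprime R D ∧
  ∀ q : ℕ, q.Prime → 3 ≤ q → q ∣ D → R % q ≠ 1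

/-- primes `x / 10 < p ≤ x` in the class, `p - 1` without odd prime factor `< z` -/
noncomputable def Pg (x : ℕ) (z : ℝ) (D R : ℕ) : Finset ℕ := by
  classical
  exact (range (x + 1)).filter (fun p => p.Prime ∧ (x : ℝ) / 10 < p ∧
    (∀ q : ℕ, q.Prime → 3 ≤ q → (q : ℝ) < z → ¬ q ∣ p - 1) ∧ p % D = R)

lemma mem_Pg {x p D R : ℕ} {z : ℝ} : p ∈ Pg x z D R ↔ p ≤ x ∧ p.Prime ∧ (x : ℝ) / 10 < p ∧
    (∀ q : ℕ, q.Prime → 3 ≤ q → (q : ℝ) < z → ¬ q ∣ p - 1) ∧ p % D = R := by
  classical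
  unfold Pg
  rw [mem_filter, mem_range, Nat.lt_succ_iff]

/-- elements of `gset` -/
lemma gset_mem_g {x D R R0 Y : ℕ} {z : ℝ} {a : ℕ → ℤ} (hadm : AdmG D R0)
    (hR : R % D = R0) (ha : ∀ q : ℕ, q.Prime → ¬ q ∣ D → (q : ℤ) ∣ D * a q + R - 1)
    (hx : D * Y + R ≤ x) {k : ℕ} (hk : k ∈ gset D R Y (SP D z) a) :
    D * k + R ≤ x ∧ (D * k + R).Prime ∧
      (∀ q : ℕ, q.Prime → 3 ≤ q → (q : ℝ) < z → ¬ q ∣ (D * k + R) - 1) ∧
      (D * k + R) % D = R0 := by
  classical
  unfold gset at hk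
  rw [mem_filter, mem_Icc] at hk
  obtain ⟨⟨hk1, hkY⟩, hav, hpr⟩ := hk
  have hmodD : (D * k + R) % D = R0 := by
    rw [Nat.mul_add_mod, hR]
  refine ⟨?_, hpr, ?_, hmodD⟩
  · have : D * k ≤ D * Y := Nat.mul_le_mul_left _ hkY
    omega
  · intro q hq hq3 hqz hdvd
    by_cases hqD : q ∣ D
    · have h1 := hadm.2.2 q hq hq3 hqD
      apply h1
      have h2 : (D * k + R) % q = ((D * k + R) % D) % q := by
        rw [Nat.mod_mod_of_dvd _ hqD]
      rw [← hmodD, ← h2]
      have h3 : 1 ≤ D * k + R := hpr.one_lt.le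
      have h4 : (D * k + R) = (D * k + R - 1) + 1 := by omega
      rw [h4]
      obtain ⟨w, hw⟩ := hdvd
      rw [hw, Nat.mul_add_mod, Nat.mod_eq_of_lt hq.one_lt]
    · have h1 := hav q (mem_SP.2 ⟨hqz, hq, hq3, hqD⟩)
      apply h1
      have h2 : (q : ℤ) ∣ ((D * k + R - 1 : ℕ) : ℤ) := by exact_mod_cast hdvd
      have h3 : 1 ≤ D * k + R := hpr.one_lt.le
      rw [Nat.cast_sub h3] at h2
      push_cast at h2
      have h4 := ha q hq hqD
      have h5 : (q : ℤ) ∣ (D : ℤ) * ((k : ℤ) - a q) := by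
        have := dvd_sub h2 h4
        have e : (D : ℤ) * k + R - 1 - (D * a q + R - 1) = D * (k - a q) := by ring
        rwa [e] at this
      have hco : IsCoprime (q : ℤ) (D : ℤ) := by
        rw [Nat.isCoprime_iff_coprime]
        exact (Nat.Prime.coprime_iff_not_dvd hq).2 hqD
      exact hco.dvd_of_dvd_mul_left h5

set_option maxHeartbeats 1000000 in
theorem class_lower_g : ∃ κ c : ℝ, 0 < κ ∧ 0 < c ∧ ∀ A : ℝ, 0 < A → ∃ x₀ : ℕ, ∀ x : ℕ, x₀ ≤ x →
    ∀ z : ℝ, 3 ≤ z → z ≤ (x : ℝ) ^ κ → ∀ D R0 : ℕ, 4 ∣ D → 1 ≤ D → (D : ℝ) ≤ (log x) ^ A →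
      AdmG D R0 → c * (x / (Nat.totient D * log x)) * VD D z ≤ ((Pg x z D R0).card : ℝ) := by
  obtain ⟨c0, hc0, hL⟩ := lower (bv sw) mertLow
  obtain ⟨c₁, hc₁, hV⟩ := VD_ge
  refine ⟨min (c0 / 2) 1, 1 / 32, by positivity, by norm_num, fun A hA => ?_⟩
  obtain ⟨y₀, hL⟩ := hL c0 hc0 le_rfl (A + 1) (by positivity)
  obtain ⟨x₀, hx₀⟩ := ev_sizes A c₁ y₀
  refine ⟨x₀, ?_⟩
  intro x hx z hz hzκ D R0 h4 hD hDA hadm
  obtain ⟨e1, e2, e3, e4, e5⟩ := hx₀ x hx
  have hx0 : (0 : ℝ) < x := by linarith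
  have hL0 : 0 < log x := Real.log_pos (by linarith)
  have hD1 : (1 : ℝ) ≤ D := by exact_mod_cast hD
  have hD4 : (4 : ℝ) ≤ D := by
    obtain ⟨w, hw⟩ := h4
    have : 4 ≤ D := by omega
    exact_mod_cast this
  set S : ℝ := (x : ℝ) ^ (1 / 2 : ℝ) with hS
  have hSS : S * S = x := by
    rw [hS, ← Real.rpow_add hx0]
    norm_num
  have hS0 : 0 < S := by positivity
  have hS10 : 10 ≤ S := by nlinarith
  have hsq : √(x : ℝ) = S := by rw [Real.sqrt_eq_rpow]
  -- y
  set y : ℕ := x / (2 * D) with hy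
  have hyle : (y : ℝ) ≤ x / (2 * D) := by
    have := @Nat.cast_div_le ℝ _ _ _ x (2 * D)
    push_cast at this
    exact this
  have hylt : (x : ℝ) / (2 * D) < y + 1 := by
    rw [div_lt_iff₀ (by positivity)]
    have h1 := Nat.lt_div_mul_add (a := x) (b := 2 * D) (by omega)
    have h2 : x < (y + 1) * (2 * D) := by
      rw [hy]; linarith
    have h3 : (x : ℝ) < ((y + 1) * (2 * D) : ℕ) := by exact_mod_cast h2
    push_cast at h3
    exact h3
  have h2D : 8 * (2 * (D : ℝ)) ≤ S := by linarith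
  have hyS1 : 8 * S ≤ x / (2 * D) := by
    rw [le_div_iff₀ (by positivity)]
    nlinarith
  have hyS : S ≤ y := by linarith
  have hy0 : (0 : ℝ) < y := by linarith
  have hyx4 : (x : ℝ) / (4 * D) ≤ y := by
    have h1 : (x : ℝ) / (4 * D) = (x / (2 * D)) / 2 := by
      field_simp
      ring
    rw [h1]
    linarith
  have hDy : (x : ℝ) / 4 ≤ D * y := by
    rw [div_le_iff₀ (by positivity)] at hyx4
    linarith
  have hDy2 : (D : ℝ) * y ≤ x / 2 := by
    rw [le_div_iff₀ (by positivity)] at hyle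
    linarith
  have hlogy : log x / 2 ≤ log y := by
    have h1 := Real.log_le_log hS0 hyS
    rw [hS, Real.log_rpow hx0] at h1
    linarith
  have hlogyA : 2 * D ≤ (log y) ^ (A + 1) := by
    have h1 : (log x / 2) ^ (A + 1) ≤ (log y) ^ (A + 1) :=
      Real.rpow_le_rpow (by positivity) hlogy (by positivity)
    have h2 : (log x / 2) ^ (A + 1) = (log x) ^ A * (log x / 2 ^ (A + 1)) := by
      rw [Real.div_rpow hL0.le (by norm_num), Real.rpow_add hL0, Real.rpow_one]
      ring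
    have h3 : (2 : ℝ) ≤ log x / 2 ^ (A + 1) := by
      rw [le_div_iff₀ (by positivity)]
      have : (2 : ℝ) ^ (A + 2) = 2 * 2 ^ (A + 1) := by
        rw [show A + 2 = 1 + (A + 1) by ring, Real.rpow_add (by norm_num), Real.rpow_one]
      linarith
    have h4 : 0 ≤ (log x) ^ A := by positivity
    nlinarith
  -- R
  obtain ⟨R, hRB, hRlt, hRmod⟩ := exists_rep D R0 (x / 4 + 1) hD hadm.1
  have hRge : (x : ℝ) / 4 ≤ R := by
    have h1 : x < (x / 4 + 1) * 4 := by omega
    have h2 : (x : ℝ) < ((x / 4 + 1) * 4 : ℕ) := by exact_mod_cast h1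
    have h3 : ((x / 4 + 1 : ℕ) : ℝ) ≤ R := by exact_mod_cast hRB
    push_cast at h2 h3
    linarith
  have hRle : (R : ℝ) ≤ x / 4 + 1 + D := by
    have h1 : (R : ℝ) < ((x / 4 + 1 + D : ℕ) : ℝ) := by exact_mod_cast hRlt
    have h2 : ((x / 4 : ℕ) : ℝ) ≤ (x : ℝ) / 4 := by
      have := @Nat.cast_div_le ℝ _ _ _ x 4
      exact_mod_cast this
    push_cast at h1
    linarith
  have hR2 : (R : ℝ) ≤ x / 2 := by
    have : (1 : ℝ) + D ≤ x / 4 := by nlinarith
    linarith
  have hcop : Nat.Coprime D R := by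
    have h1 : Nat.Coprime R0 D := hadm.2.1
    rw [← hRmod] at h1
    unfold Nat.Coprime at h1 ⊢
    rwa [Nat.gcd_rec]
  have hsum : D * y + R ≤ x := by
    have : ((D * y + R : ℕ) : ℝ) ≤ x := by
      push_cast
      linarith
    exact_mod_cast this
  obtain ⟨a, ha⟩ := exists_cls D R
  have hyy₀ : y₀ ≤ y := by
    have : (y₀ : ℝ) ≤ y := e3.trans hyS
    exact_mod_cast this
  have hyc : z ≤ (y : ℝ) ^ c0 := by
    refine hzκ.trans ?_
    calc (x : ℝ) ^ (min (c0 / 2) 1) ≤ (x : ℝ) ^ (c0 / 2) :=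
          Real.rpow_le_rpow_of_exponent_le (by linarith) (min_le_left _ _)
      _ = S ^ c0 := by
          rw [hS, ← Real.rpow_mul hx0.le]
          congr 1
          ring
      _ ≤ (y : ℝ) ^ c0 := Real.rpow_le_rpow hS0.le hyS hc0.le
  have hlow := hL y hyy₀ D R y (SP D z) a hD (by linarith) hcop (by nlinarith)
    (by
      have h1 : (x : ℝ) / 2 ≤ y * (log y) ^ (A + 1) := by
        calc (x : ℝ) / 2 = 2 * (x / 4) := by ring
          _ ≤ 2 * (D * y) := by linarith
          _ = y * (2 * D) := by ring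
          _ ≤ _ := mul_le_mul_of_nonneg_left hlogyA hy0.le
      linarith) (by linarith) le_rfl
    (by
      intro q hq
      obtain ⟨h1, h2, h3, -⟩ := mem_SP.1 hq
      exact ⟨h2, h3, lt_of_lt_of_le h1 hyc⟩) (cls_ne ha)
  have hR1 : 1 ≤ R := by omega
  have hls := lsum_le D R y hD hR1 (SP D z) a
  set G : ℝ := ((gset D R y (SP D z) a).card : ℝ) with hG
  have hsum' : ((D * y + R : ℕ) : ℝ) ≤ x := by exact_mod_cast hsum
  have hlogle : Real.log ((D * y + R : ℕ) : ℝ) ≤ log x :=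
    Real.log_le_log (by exact_mod_cast (by omega : 0 < D * y + R)) hsum'
  have hsqle : √((D * y + R : ℕ) : ℝ) ≤ S := by
    rw [← hsq]
    exact Real.sqrt_le_sqrt hsum'
  have hlognn : 0 ≤ Real.log ((D * y + R : ℕ) : ℝ) :=
    Real.log_nonneg (by exact_mod_cast (by omega : 1 ≤ D * y + R))
  have hG0 : 0 ≤ G := by rw [hG]; positivity
  have hup : 1 / 4 * ((D : ℝ) * y / (Nat.totient D : ℝ)) * VD D z ≤ G * log x + 2 * S * log x := by
    refine hlow.trans (hls.trans ?_)
    gcongr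
  have hφ : (0 : ℝ) < Nat.totient D := by exact_mod_cast Nat.totient_pos.2 hD
  have hφD : (Nat.totient D : ℝ) ≤ D := by exact_mod_cast Nat.totient_le D
  have hVnn := VD_nonneg D z
  have hlogz : 0 < log z := Real.log_pos (by linarith)
  have hlogzx : log z ≤ log x := by
    have h1 : z ≤ x := by
      refine hzκ.trans ?_
      calc (x : ℝ) ^ (min (c0 / 2) 1) ≤ (x : ℝ) ^ (1 : ℝ) :=
            Real.rpow_le_rpow_of_exponent_le (by linarith) (min_le_right _ _)
        _ = x := Real.rpow_one _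
    exact Real.log_le_log (by linarith) h1
  have hVge : c₁ / log x ≤ VD D z :=
    le_trans (div_le_div_of_nonneg_left hc₁.le hlogz hlogzx) (hV D z hz)
  -- main inequality
  have hmain : 1 / 32 * (x / (Nat.totient D * log x)) * VD D z ≤ G := by
    have h1 : (x : ℝ) / 16 / (Nat.totient D) * VD D z ≤ G * log x + 2 * S * log x := by
      refine le_trans ?_ hup
      apply mul_le_mul_of_nonneg_right _ hVnn
      rw [div_div, ← mul_div_assoc, div_le_div_iff₀ (by positivity) (by positivity)]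
      nlinarith
    -- error
    have h2 : 2 * S * log x ≤ (x : ℝ) / 32 / (Nat.totient D) * VD D z := by
      have h3 : (x : ℝ) / 32 / (log x) ^ A * (c₁ / log x) ≤ (x : ℝ) / 32 / (Nat.totient D) * VD D z := by
        apply mul_le_mul _ hVge (by positivity) (by positivity)
        apply div_le_div_of_nonneg_left (by positivity) hφ
        linarith
      refine le_trans ?_ h3
      rw [div_div, div_mul_div_comm, le_div_iff₀ (by positivity)]
      have h5 : (log x) ^ (A + 2) = (log x) ^ A * log x * log x := by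
        rw [Real.rpow_add hL0, show (2 : ℝ) = ((2 : ℕ) : ℝ) by norm_num, Real.rpow_natCast]
        ring
      rw [h5] at e2
      have h6 : 128 * ((log x) ^ A * log x * log x) ≤ S * c₁ := by
        rw [div_mul_eq_mul_div, div_le_iff₀ hc₁] at e2
        exact e2
      have h7 : 2 * S * log x * (32 * (log x) ^ A * log x) = S / 2 * (128 * ((log x) ^ A * log x * log x)) := by
        ring
      have h8 : S / 2 * (128 * ((log x) ^ A * log x * log x)) ≤ S / 2 * (S * c₁) :=
        mul_le_mul_of_nonneg_left h6 (by positivity)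
      have h9 : S / 2 * (S * c₁) = x * c₁ / 2 := by
        rw [← hSS]
        ring
      have h10 : 0 < x * c₁ := by positivity
      rw [h7]
      linarith
    have h3 : (x : ℝ) / 16 / (Nat.totient D) * VD D z = 2 * ((x : ℝ) / 32 / (Nat.totient D) * VD D z) := by
      ring
    have h4 : (x : ℝ) / 32 / (Nat.totient D) * VD D z ≤ G * log x := by linarith
    have h5 : 1 / 32 * (x / (Nat.totient D * log x)) * VD D z =
        (x : ℝ) / 32 / (Nat.totient D) * VD D z / log x := by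
      field_simp
    rw [h5, div_le_iff₀ hL0]
    exact h4
  refine hmain.trans ?_
  rw [hG]
  have hinj : (gset D R y (SP D z) a).card ≤ (Pg x z D R0).card := by
    apply Finset.card_le_card_of_injOn (fun k => D * k + R)
    · intro k hk
      have h1 := gset_mem_g hadm hRmod ha hsum hk
      refine mem_Pg.2 ⟨h1.1, h1.2.1, ?_, h1.2.2.1, h1.2.2.2⟩
      push_cast
      have : (0 : ℝ) ≤ (D : ℝ) * k := by positivity
      linarith
    · intro k _ k' _ h
      have h1 : D * k + R = D * k' + R := h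
      have h2 : D * k = D * k' := by omega
      exact Nat.eq_of_mul_eq_mul_left (by omega) h2
  exact_mod_cast hinj

end Vale.Agent.P016.FE.H250
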