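import Vale.Agent.P016.R2.H250.A
import Vale.Agent.P016.FE.KG
import Vale.Agent.P016.FE.CP

/-!
# Simultaneous primitive roots, part B: primes that are good for all independent sets
-/

open Finset Real Filter

namespace Vale.Agent.P016.FE.H250

open Vale.Agent.P013.J

/-- the index of `a` modulo `p` is a power of two -/
def Ind2 (p : ℕ) (a : ℤ) : Prop := ∃ j : ℕ, orderOf (a : ZMod p) * 2 ^ j = p - 1

open Classical in
/-- at most `K` elements of any independent set of integers in `[-Y, Y]` fail `Ind2` -/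
def PG (K : ℕ) (Y : ℝ) (p : ℕ) : Prop := ∀ E : Finset ℤ, Indep E → (∀ a ∈ E, |(a : ℝ)| ≤ Y) →
  (E.filter (fun a => ¬ Ind2 p a)).card ≤ K

lemma ind2_of (p : ℕ) (hp : p.Prime) (a : ℤ) (ha : (a : ZMod p) ≠ 0)
    (hk : ∀ r : ℕ, r.Prime → 3 ≤ r → r ∣ p - 1 → ¬ Res p r a) : Ind2 p a := by
  have : Fact p.Prime := ⟨hp⟩
  have hpos : 0 < p - 1 := Nat.sub_pos_of_lt hp.one_lt
  obtain ⟨n, hn⟩ : orderOf (a : ZMod p) ∣ p - 1 := ZMod.orderOf_dvd_card_sub_one ha
  have hn0 : n ≠ 0 := by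
    rintro rfl
    omega
  have ho : orderOf (a : ZMod p) ≠ 0 := by
    intro h
    rw [h] at hn
    omega
  have h2 : ∀ {d : ℕ}, d.Prime → d ∣ n → d = 2 := by
    intro d hd hdn
    by_contra hne
    have h3 : 3 ≤ d := by
      have := hd.two_le
      omega
    obtain ⟨w, hw⟩ := hdn
    refine hk d hd h3 ⟨orderOf (a : ZMod p) * w, by rw [hn, hw]; ring⟩ ?_
    unfold Res
    have h4 : (p - 1) / d = orderOf (a : ZMod p) * w := by
      rw [hn, hw, show orderOf (a : ZMod p) * (d * w) = d * (orderOf (a : ZMod p) * w) by ring,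
        Nat.mul_div_cancel_left _ hd.pos]
    rw [h4, pow_mul, pow_orderOf_eq_one, one_pow]
  exact ⟨n.primeFactorsList.length, by rw [← Nat.eq_prime_pow_of_unique_prime_dvd hn0 h2, ← hn]⟩

/-- a nonsquare whose index is a power of two is a primitive root -/
lemma primroot_of (p : ℕ) (hp : p.Prime) (a : ℤ) (h : Ind2 p a)
    (hs : ¬ IsSquare (a : ZMod p)) : orderOf (a : ZMod p) = p - 1 := by
  have : Fact p.Prime := ⟨hp⟩
  have ha0 : (a : ZMod p) ≠ 0 := by
    intro h
    exact hs (h ▸ ⟨0, by simp⟩)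
  obtain ⟨j, hj⟩ := h
  rcases Nat.eq_zero_or_pos j with rfl | hj0
  · simpa using hj
  · exfalso
    apply hs
    rw [ZMod.euler_criterion p ha0]
    obtain ⟨i, rfl⟩ : ∃ i, j = i + 1 := ⟨j - 1, by omega⟩
    have h1 : p / 2 = orderOf (a : ZMod p) * 2 ^ i := by
      have h2 : p = 2 * (orderOf (a : ZMod p) * 2 ^ i) + 1 := by
        have := hp.one_lt
        have h3 : orderOf (a : ZMod p) * 2 ^ (i + 1) = 2 * (orderOf (a : ZMod p) * 2 ^ i) := by
          ring
        omega
      omega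
    rw [h1, pow_mul, pow_orderOf_eq_one, one_pow]

lemma zero_notMem_of_indep {E : Finset ℤ} (h : Indep E) : (0 : ℤ) ∉ E := by
  intro h0
  have := h (fun _ => 1) (fun _ => 2) (by
    rw [Finset.prod_eq_zero h0 (by norm_num), Finset.prod_eq_zero h0 (by norm_num)]) 0 h0
  norm_num at this

/-- the exceptional primes -/
noncomputable def Bad (x m Y : ℕ) : Finset ℕ := by
  classical
  exact ((((Icc (-(Y : ℤ)) Y).powersetCard m).filter (fun F => Indep F)).biUnion
    (fun F => Gb x ((x : ℝ) ^ (2 / (m : ℝ))) F m))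

lemma bad_card (x m Y : ℕ) (hx : 1 ≤ x) (hm : 2 ≤ m) (hY : Y ≤ x) :
    ((Bad x m Y).card : ℝ) ≤ (2 * Y + 1) ^ m *
      (2 ^ m * (3 ^ m * (m * (2 * 1 * log x + 2))) * (x * exp (-(log x / m)))) := by
  classical
  have h1 : ((Bad x m Y).card : ℝ) ≤
      ∑ F ∈ ((Icc (-(Y : ℤ)) Y).powersetCard m).filter (fun F => Indep F),
        ((Gb x ((x : ℝ) ^ (2 / (m : ℝ))) F m).card : ℝ) := by
    unfold Bad
    exact_mod_cast Finset.card_biUnion_le
  refine h1.trans ?_
  have h2 : ∀ F ∈ ((Icc (-(Y : ℤ)) Y).powersetCard m).filter (fun F => Indep F),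
      ((Gb x ((x : ℝ) ^ (2 / (m : ℝ))) F m).card : ℝ) ≤
      (2 ^ m * (3 ^ m * (m * (2 * 1 * log x + 2))) * (x * exp (-(log x / m)))) := by
    intro F hF
    rw [Finset.mem_filter, Finset.mem_powersetCard] at hF
    obtain ⟨⟨hF1, hF2⟩, hF3⟩ := hF
    have h3 := cp_term gm F hF3 1 one_pos x hx (by
      intro a ha
      have := Finset.mem_Icc.1 (hF1 ha)
      rw [Real.rpow_one, abs_le]
      have hYx : (Y : ℤ) ≤ x := by exact_mod_cast hY
      constructor
      · have h4 : -(x : ℤ) ≤ a := by omega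
        exact_mod_cast h4
      · have h4 : a ≤ (x : ℤ) := by omega
        exact_mod_cast h4) m hm
    rwa [hF2] at h3
  refine (Finset.sum_le_sum h2).trans ?_
  rw [Finset.sum_const, nsmul_eq_mul]
  have hL : 0 ≤ log x := Real.log_nonneg (by exact_mod_cast hx)
  apply mul_le_mul_of_nonneg_right _ (by positivity)
  have h5 : (((Icc (-(Y : ℤ)) Y).powersetCard m).filter (fun F => Indep F)).card ≤
      (2 * Y + 1) ^ m := by
    refine (Finset.card_filter_le _ _).trans ?_
    rw [Finset.card_powersetCard, Int.card_Icc]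
    refine (Nat.choose_le_pow _ _).trans ?_
    apply Nat.pow_le_pow_left
    omega
  exact_mod_cast h5

/-- primes outside `Bad` -/
lemma good_of (x m Y D R : ℕ) (hx : 2 ≤ x) (hm : 2 ≤ m) (hYx : (Y : ℝ) ≤ x / 10) {p : ℕ}
    (hp : p ∈ Pg x ((x : ℝ) ^ (2 / (m : ℝ))) D R) (hbad : p ∉ Bad x m Y) (E : Finset ℤ)
    (hE : Indep E) (hEY : ∀ a ∈ E, a ∈ Icc (-(Y : ℤ)) Y) :
    (by classical exact (E.filter (fun a => ¬ Ind2 p a)).card) ≤ m * m := by
  classical
  obtain ⟨hpx, hpp, hp10, hpz, -⟩ := mem_Pg.1 hp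
  have : Fact p.Prime := ⟨hpp⟩
  set z : ℝ := (x : ℝ) ^ (2 / (m : ℝ)) with hz
  have hx1 : (1 : ℝ) < x := by exact_mod_cast hx
  have hm0 : (0 : ℝ) < m := by exact_mod_cast (by omega : 0 < m)
  set Rp : Finset ℕ := (p - 1).primeFactors.filter (fun r : ℕ => z ≤ r) with hRp
  have hp1 : p - 1 ≠ 0 := by
    have := hpp.one_lt
    omega
  -- few large prime factors
  have hRcard : Rp.card ≤ m := by
    have h1 : z ^ Rp.card ≤ ((∏ r ∈ Rp, r : ℕ) : ℝ) := by
      rw [Nat.cast_prod, ← Finset.prod_const]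
      apply Finset.prod_le_prod
      · intro i _
        exact Real.rpow_nonneg (by positivity) _
      · intro i hi
        exact (Finset.mem_filter.1 hi).2
    have h2 : (∏ r ∈ Rp, r) ≤ p - 1 := by
      refine Nat.le_of_dvd (by omega) ?_
      refine dvd_trans ?_ (Nat.prod_primeFactors_dvd (p - 1))
      exact Finset.prod_dvd_prod_of_subset _ _ _ (Finset.filter_subset _ _)
    have h3 : ((∏ r ∈ Rp, r : ℕ) : ℝ) ≤ (x : ℝ) := by
      exact_mod_cast h2.trans (by omega)
    have h4 : (x : ℝ) ^ (2 / (m : ℝ) * Rp.card) ≤ (x : ℝ) ^ (1 : ℝ) := by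
      rw [Real.rpow_one, Real.rpow_mul (by positivity), Real.rpow_natCast]
      exact h1.trans h3
    have h5 := (Real.rpow_le_rpow_left_iff hx1).1 h4
    have h6 : 2 * (Rp.card : ℝ) ≤ m := by
      have h7 : 2 / (m : ℝ) * Rp.card = 2 * (Rp.card : ℝ) / m := by ring
      rw [h7, div_le_one hm0] at h5
      exact h5
    have h8 : (Rp.card : ℝ) ≤ m := by
      have : (0 : ℝ) ≤ Rp.card := Nat.cast_nonneg _
      linarith
    exact_mod_cast h8
  have hsub : E.filter (fun a => ¬ Ind2 p a) ⊆ Rp.biUnion (fun r => E.filter (fun a => Res p r a)) := by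
    intro a ha
    rw [Finset.mem_filter] at ha
    obtain ⟨haE, han⟩ := ha
    have ha0 : a ≠ 0 := by
      rintro rfl
      exact zero_notMem_of_indep hE haE
    have hap : (a : ZMod p) ≠ 0 := by
      intro h
      rw [ZMod.intCast_zmod_eq_zero_iff_dvd] at h
      have h1 : p ≤ a.natAbs := by
        apply Nat.le_of_dvd (Int.natAbs_pos.2 ha0)
        exact Int.natCast_dvd.1 h
      have h2 : a.natAbs ≤ Y := by
        have := Finset.mem_Icc.1 (hEY a haE)
        omega
      have h3 : (p : ℝ) ≤ Y := by exact_mod_cast h1.trans h2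
      linarith
    by_contra hcon
    apply han
    apply ind2_of p hpp a hap
    intro r hr hr3 hrd hres
    apply hcon
    rw [Finset.mem_biUnion]
    refine ⟨r, ?_, Finset.mem_filter.2 ⟨haE, hres⟩⟩
    rw [hRp, Finset.mem_filter, Nat.mem_primeFactors]
    refine ⟨⟨hr, hrd, hp1⟩, ?_⟩
    by_contra hlt
    exact hpz r hr hr3 (not_le.1 hlt) hrd
  refine (Finset.card_le_card hsub).trans ?_
  refine (Finset.card_biUnion_le_card_mul _ _ m ?_).trans (Nat.mul_le_mul_right _ hRcard)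
  intro r hr
  rw [hRp, Finset.mem_filter, Nat.mem_primeFactors] at hr
  obtain ⟨⟨hr1, hr2, -⟩, hr3⟩ := hr
  by_contra hlt
  have hlt' : m ≤ (E.filter (fun a => Res p r a)).card := by omega
  obtain ⟨F, hF1, hF2⟩ := Finset.exists_subset_card_eq hlt'
  apply hbad
  unfold Bad
  rw [Finset.mem_biUnion]
  refine ⟨F, ?_, ?_⟩
  · rw [Finset.mem_filter, Finset.mem_powersetCard]
    refine ⟨⟨fun a ha => hEY a (Finset.mem_filter.1 (hF1 ha)).1, hF2⟩, ?_⟩
    exact hE.subset (hF1.trans (Finset.filter_subset _ _))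
  · unfold Gb
    rw [Finset.mem_filter, Finset.mem_range]
    refine ⟨by omega, hpp, r, hr1, hr3, hr2, ?_⟩
    unfold mres
    rw [Finset.filter_true_of_mem (fun a ha => (Finset.mem_filter.1 (hF1 ha)).2), hF2]

end Vale.Agent.P016.FE.H250
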