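import Vale.Agent.P016.R2.H250.B

/-!
# Simultaneous primitive roots, part C: the main count
-/

open Finset Real Filter

namespace Vale.Agent.P016.FE.H250

open Vale.Agent.P013.J

lemma main_bound (x m Y : ℕ) (A c : ℝ) (hm : 2 ≤ m) (hc : 0 < c)
    (hY : (Y : ℝ) ≤ (x : ℝ) ^ (1 / (2 * (m : ℝ) ^ 2))) (hx : 1 ≤ log x) (hx1 : 1 ≤ x)
    (hbig : 4 * (18 ^ m * m) / c * (log x) ^ (A + 3) ≤ (x : ℝ) ^ (1 / (2 * (m : ℝ)))) :
    (2 * (Y : ℝ) + 1) ^ m *
      (2 ^ m * (3 ^ m * (m * (2 * 1 * log x + 2))) * (x * exp (-(log x / m)))) ≤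
      c * (x / ((log x) ^ A * (log x) ^ 2)) := by
  have hx1' : (1 : ℝ) ≤ x := by exact_mod_cast hx1
  have hx0 : (0 : ℝ) < x := by linarith
  have hm0 : (0 : ℝ) < m := by exact_mod_cast (by omega : 0 < m)
  have hL0 : 0 < log x := by linarith
  set L := log x with hL
  have h1 : (2 * (Y : ℝ) + 1) ^ m ≤ 3 ^ m * (x : ℝ) ^ (1 / (2 * (m : ℝ))) := by
    have h2 : (1 : ℝ) ≤ (x : ℝ) ^ (1 / (2 * (m : ℝ) ^ 2)) := Real.one_le_rpow hx1' (by positivity)
    have h3 : 2 * (Y : ℝ) + 1 ≤ 3 * (x : ℝ) ^ (1 / (2 * (m : ℝ) ^ 2)) := by linarith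
    have h4 : ((x : ℝ) ^ (1 / (2 * (m : ℝ) ^ 2))) ^ m = (x : ℝ) ^ (1 / (2 * (m : ℝ))) := by
      rw [← Real.rpow_natCast, ← Real.rpow_mul hx0.le]
      congr 1
      field_simp
    calc (2 * (Y : ℝ) + 1) ^ m ≤ (3 * (x : ℝ) ^ (1 / (2 * (m : ℝ) ^ 2))) ^ m :=
          pow_le_pow_left₀ (by positivity) h3 m
      _ = _ := by rw [mul_pow, h4]
  set W := (x : ℝ) ^ (1 / (2 * (m : ℝ))) with hW
  have hW0 : 0 < W := by positivity
  have hexp : exp (-(L / m)) = 1 / (W * W) := by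
    rw [hW, ← Real.rpow_add hx0, Real.rpow_def_of_pos hx0, ← hL, Real.exp_neg, one_div]
    congr 2
    field_simp
    ring
  rw [hexp]
  have h5 : (2 * 1 * L + 2) ≤ 4 * L := by linarith
  have hpow : L ^ (A + 3) = L ^ A * L ^ 2 * L := by
    rw [Real.rpow_add hL0, show (3 : ℝ) = ((3 : ℕ) : ℝ) by norm_num, Real.rpow_natCast]
    ring
  have hLA : 0 < L ^ A := Real.rpow_pos_of_pos hL0 A
  have h6 : 4 * (18 ^ m * m) * (L ^ A * L ^ 2 * L) ≤ W * c := by
    rw [hpow, div_mul_eq_mul_div, div_le_iff₀ hc] at hbig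
    exact hbig
  calc (2 * (Y : ℝ) + 1) ^ m *
      (2 ^ m * (3 ^ m * (m * (2 * 1 * L + 2))) * (x * (1 / (W * W))))
      ≤ (3 ^ m * W) * (2 ^ m * (3 ^ m * (m * (4 * L))) * (x * (1 / (W * W)))) := by
        apply mul_le_mul h1 _ (by positivity) (by positivity)
        apply mul_le_mul_of_nonneg_right _ (by positivity)
        apply mul_le_mul_of_nonneg_left _ (by positivity)
        apply mul_le_mul_of_nonneg_left _ (by positivity)
        exact mul_le_mul_of_nonneg_left h5 hm0.le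
    _ = (4 * (18 ^ m * m) * (L ^ A * L ^ 2 * L)) * (x / (L ^ A * L ^ 2)) / W := by
        have e : (18 : ℝ) ^ m = 3 ^ m * (2 ^ m * 3 ^ m) := by
          rw [← mul_pow, ← mul_pow]
          norm_num
        rw [e]
        field_simp
    _ ≤ (W * c) * (x / (L ^ A * L ^ 2)) / W := by
        apply div_le_div_of_nonneg_right _ hW0.le
        apply mul_le_mul_of_nonneg_right h6 (by positivity)
    _ = c * (x / (L ^ A * L ^ 2)) := by
        field_simp

theorem base : ∃ (K : ℕ) (c η : ℝ), 0 < c ∧ 0 < η ∧ ∀ A : ℝ, 0 < A → ∃ x₀ : ℕ, ∀ x : ℕ,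
    x₀ ≤ x → ∃ G : Finset ℕ,
      (∀ p ∈ G, p ≤ x ∧ p.Prime ∧ (x : ℝ) / 10 < p ∧ PG K ((x : ℝ) ^ η) p) ∧
      ∀ D b : ℕ, 4 ∣ D → 1 ≤ D → (D : ℝ) ≤ (log x) ^ A → AdmG D b →
        c * (x / (Nat.totient D * (log x) ^ 2)) ≤ ((G.filter (fun p => p % D = b)).card : ℝ) := by
  classical
  obtain ⟨κ, c0, hκ, hc0, hlow⟩ := class_lower_g
  obtain ⟨c₁, hc₁, hV⟩ := VD_ge
  obtain ⟨m, hm2, hmκ⟩ : ∃ m : ℕ, 2 ≤ m ∧ 2 / (m : ℝ) ≤ κ := by
    refine ⟨max 2 ⌈2 / κ⌉₊, le_max_left _ _, ?_⟩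
    have h1 : 2 / κ ≤ ((max 2 ⌈2 / κ⌉₊ : ℕ) : ℝ) := by
      refine (Nat.le_ceil _).trans ?_
      exact_mod_cast le_max_right _ _
    have h2 : (0 : ℝ) < ((max 2 ⌈2 / κ⌉₊ : ℕ) : ℝ) := lt_of_lt_of_le (by positivity) h1
    rw [div_le_iff₀ h2]
    rw [div_le_iff₀ hκ] at h1
    linarith
  have hm0 : (0 : ℝ) < m := by exact_mod_cast (by omega : 0 < m)
  have hm2' : (2 : ℝ) ≤ m := by exact_mod_cast hm2
  set c : ℝ := c0 * c₁ * m / 4 with hc
  have hcpos : 0 < c := by positivity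
  refine ⟨m * m, c, 1 / (2 * (m : ℝ) ^ 2), hcpos, by positivity, fun A hA => ?_⟩
  obtain ⟨x₁, hlow⟩ := hlow A hA
  obtain ⟨x₂, hx₂⟩ := eventually_atTop.1 ((ev_const_le_log 1).and
    ((ev_log_le (A + 3) (4 * (18 ^ m * m) / c) (1 / (2 * (m : ℝ))) (by positivity)).and
      ((ev_const_le_rpow 3 (2 / (m : ℝ)) (by positivity)).and (eventually_ge_atTop 100))))
  refine ⟨max x₁ x₂, ?_⟩
  intro x hx
  obtain ⟨e1, e2, e3, e4⟩ := hx₂ x ((le_max_right _ _).trans hx)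
  have hx1 : x₁ ≤ x := (le_max_left _ _).trans hx
  have hx100 : (100 : ℝ) ≤ x := by exact_mod_cast e4
  have hx0 : (0 : ℝ) < x := by linarith
  have hL0 : 0 < log x := by linarith
  set z : ℝ := (x : ℝ) ^ (2 / (m : ℝ)) with hz
  have hzκ : z ≤ (x : ℝ) ^ κ := Real.rpow_le_rpow_of_exponent_le (by linarith) hmκ
  set Y : ℕ := ⌊(x : ℝ) ^ (1 / (2 * (m : ℝ) ^ 2))⌋₊ with hY
  have hYle : (Y : ℝ) ≤ (x : ℝ) ^ (1 / (2 * (m : ℝ) ^ 2)) := Nat.floor_le (by positivity)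
  have hYx10 : (Y : ℝ) ≤ x / 10 := by
    have h1 : (x : ℝ) ^ (1 / (2 * (m : ℝ) ^ 2)) ≤ (x : ℝ) ^ (1 / 2 : ℝ) := by
      apply Real.rpow_le_rpow_of_exponent_le (by linarith)
      apply div_le_div_of_nonneg_left (by norm_num) (by norm_num)
      nlinarith
    have h2 : (x : ℝ) ^ (1 / 2 : ℝ) ≤ x / 10 := by
      rw [← Real.sqrt_eq_rpow, Real.sqrt_le_left (by positivity)]
      nlinarith
    linarith
  have hYx : Y ≤ x := by
    have : (Y : ℝ) ≤ x := by linarith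
    exact_mod_cast this
  refine ⟨(Pg x z 1 0) \ Bad x m Y, ?_, ?_⟩
  · intro p hp
    rw [Finset.mem_sdiff] at hp
    obtain ⟨hp1, hp2⟩ := hp
    obtain ⟨g1, g2, g3, -⟩ := mem_Pg.1 hp1
    refine ⟨g1, g2, g3, ?_⟩
    intro E hE hEY
    have h3 := good_of x m Y 1 0 (by omega) hm2 hYx10 hp1 hp2 E hE (by
      intro a ha
      have h4 := hEY a ha
      have h5 : a.natAbs ≤ Y := by
        apply Nat.le_floor
        rw [Nat.cast_natAbs]
        push_cast
        exact h4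
      rw [Finset.mem_Icc]
      omega)
    exact h3
  · intro D b h4 hD hDA hadm
    have h1 := hlow x hx1 z e3 hzκ D b h4 hD hDA hadm
    have h2 := bad_card x m Y (by omega) hm2 hYx
    have h3 := main_bound x m Y A c hm2 hcpos hYle e1 (by omega) e2
    have hφ : (0 : ℝ) < Nat.totient D := by exact_mod_cast Nat.totient_pos.2 hD
    have hφD : (Nat.totient D : ℝ) ≤ (log x) ^ A := by
      have : (Nat.totient D : ℝ) ≤ D := by exact_mod_cast Nat.totient_le D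
      linarith
    have h5 : c * (x / ((log x) ^ A * (log x) ^ 2)) ≤ c * (x / (Nat.totient D * (log x) ^ 2)) := by
      apply mul_le_mul_of_nonneg_left _ hcpos.le
      apply div_le_div_of_nonneg_left hx0.le (by positivity)
      exact mul_le_mul_of_nonneg_right hφD (by positivity)
    have hlz : log z = 2 / m * log x := by rw [hz, Real.log_rpow hx0]
    have h6 : 2 * (c * (x / (Nat.totient D * (log x) ^ 2))) ≤
        c0 * (x / (Nat.totient D * log x)) * VD D z := by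
      have h7 := hV D z e3
      rw [hlz] at h7
      calc 2 * (c * (x / (Nat.totient D * (log x) ^ 2))) =
          c0 * (x / (Nat.totient D * log x)) * (c₁ / (2 / m * log x)) := by
            rw [hc]
            field_simp
            ring
        _ ≤ _ := mul_le_mul_of_nonneg_left h7 (by positivity)
    have h8 : ((Pg x z D b).card : ℝ) ≤
        ((((Pg x z 1 0) \ Bad x m Y).filter (fun p => p % D = b)).card : ℝ) +
          ((Bad x m Y).card : ℝ) := by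
      have h9 : Pg x z D b ⊆ (((Pg x z 1 0) \ Bad x m Y).filter (fun p => p % D = b)) ∪
          Bad x m Y := by
        intro p hp
        obtain ⟨g1, g2, g3, g4, g5⟩ := mem_Pg.1 hp
        rw [Finset.mem_union]
        by_cases hb : p ∈ Bad x m Y
        · exact Or.inr hb
        · left
          rw [Finset.mem_filter, Finset.mem_sdiff]
          exact ⟨⟨mem_Pg.2 ⟨g1, g2, g3, g4, Nat.mod_one p⟩, hb⟩, g5⟩
      exact_mod_cast (Finset.card_le_card h9).trans (Finset.card_union_le _ _)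
    linarith

end Vale.Agent.P016.FE.H250
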