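import Mathlib

/-!
# P016: a completely multiplicative sign with prescribed values
-/

set_option autoImplicit false

open Finset

namespace Vale.Agent.P016.FE.H250

/-- sign and valuations modulo two -/
noncomputable def vv (n : ℤ) : ZMod 2 × (ℕ → ZMod 2) :=
  (if n < 0 then 1 else 0, fun p => (n.natAbs.factorization p : ZMod 2))

theorem vv_mul {a b : ℤ} (ha : a ≠ 0) (hb : b ≠ 0) : vv (a * b) = vv a + vv b := by
  unfold vv
  refine Prod.ext ?_ ?_
  · show (if a * b < 0 then (1 : ZMod 2) else 0) =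
      (if a < 0 then 1 else 0) + (if b < 0 then 1 else 0)
    have h2 : (1 : ZMod 2) + 1 = 0 := by decide
    rcases lt_or_gt_of_ne ha with h | h
    · rcases lt_or_gt_of_ne hb with h' | h'
      · rw [if_neg (not_lt.mpr (mul_pos_of_neg_of_neg h h').le), if_pos h, if_pos h', h2]
      · rw [if_pos (mul_neg_of_neg_of_pos h h'), if_pos h, if_neg (not_lt.mpr h'.le), add_zero]
    · rcases lt_or_gt_of_ne hb with h' | h'
      · rw [if_pos (mul_neg_of_pos_of_neg h h'), if_neg (not_lt.mpr h.le), if_pos h', zero_add]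
      · rw [if_neg (not_lt.mpr (mul_pos h h').le), if_neg (not_lt.mpr h.le),
          if_neg (not_lt.mpr h'.le), add_zero]
  · funext p
    show (((a * b).natAbs.factorization p : ℕ) : ZMod 2) =
      ((a.natAbs.factorization p : ℕ) : ZMod 2) + ((b.natAbs.factorization p : ℕ) : ZMod 2)
    rw [Int.natAbs_mul, Nat.factorization_mul (Int.natAbs_ne_zero.mpr ha)
      (Int.natAbs_ne_zero.mpr hb), Finsupp.add_apply, Nat.cast_add]

theorem vv_one : vv 1 = 0 := by
  unfold vv
  refine Prod.ext ?_ ?_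
  · simp
  · funext p; simp

theorem vv_prod (F : Finset ℤ) (h : ∀ a ∈ F, a ≠ 0) :
    vv (∏ a ∈ F, a) = ∑ a ∈ F, vv a := by
  classical
  induction F using Finset.induction_on with
  | empty => simp [vv_one]
  | insert a s has ih =>
    rw [Finset.prod_insert has, Finset.sum_insert has, vv_mul (h a (Finset.mem_insert_self a s)),
      ih (fun b hb => h b (Finset.mem_insert_of_mem hb))]
    exact Finset.prod_ne_zero_iff.mpr (fun b hb => h b (Finset.mem_insert_of_mem hb))

theorem isSquare_of_vv {n : ℤ} (hn : n ≠ 0) (h : vv n = 0) : IsSquare n := by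
  have h1 : (if n < 0 then (1 : ZMod 2) else 0) = 0 := congrArg Prod.fst h
  have h2 : ∀ p : ℕ, ((n.natAbs.factorization p : ℕ) : ZMod 2) = 0 := fun p =>
    congrFun (congrArg Prod.snd h) p
  have h3 : 0 ≤ n := by
    by_contra hcon
    rw [if_pos (not_le.mp hcon)] at h1
    exact one_ne_zero h1
  have h4 : IsSquare n.natAbs := by
    rw [← Nat.prod_factorization_pow_eq_self (Int.natAbs_ne_zero.mpr hn)]
    unfold Finsupp.prod
    apply Finset.isSquare_prod
    intro p _
    apply Even.isSquare_pow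
    have := h2 p
    rw [ZMod.natCast_eq_zero_iff] at this
    exact even_iff_two_dvd.mpr this
  obtain ⟨r, hr⟩ := h4
  refine ⟨(r : ℤ), ?_⟩
  have h5 : (n.natAbs : ℤ) = n := Int.natAbs_of_nonneg h3
  rw [← h5, hr]
  push_cast
  rfl

/-- linear algebra over the field with two elements: a completely multiplicative sign with
prescribed values -/
theorem exists_char (E T : Finset ℤ) (h0 : (0:ℤ) ∉ E)
    (h : ∀ F : Finset ℤ, F ⊆ E → (Odd (F ∩ T).card → ¬ IsSquare (∏ a ∈ F, a)) ∧
      (Even (F ∩ T).card → ¬ IsSquare (-3 * ∏ a ∈ F, a))) :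
    ∃ χ : ℤ → ℤ, (∀ a, a ≠ 0 → χ a = 1 ∨ χ a = -1) ∧
      (∀ a b, a ≠ 0 → b ≠ 0 → χ (a * b) = χ a * χ b) ∧ χ (-3) = -1 ∧
      ∀ a ∈ E, (χ a = -1 ↔ a ∈ T) := by
  classical
  -- the vectors and the prescribed values
  obtain ⟨w, hw⟩ : ∃ w : Option {a // a ∈ E} → ZMod 2 × (ℕ → ZMod 2),
    w = fun i => i.elim (vv (-3)) (fun a => vv a.1) := ⟨_, rfl⟩
  obtain ⟨s, hs⟩ : ∃ s : Option {a // a ∈ E} → ZMod 2,
    s = fun i => i.elim 1 (fun a => if a.1 ∈ T then 1 else 0) := ⟨_, rfl⟩
  obtain ⟨Φ, hΦ⟩ : ∃ Φ : (Option {a // a ∈ E} → ZMod 2) →ₗ[ZMod 2] ZMod 2 × (ℕ → ZMod 2),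
    ∀ c, Φ c = ∑ i, c i • w i := by
    refine ⟨Fintype.linearCombination (ZMod 2) w, fun c => ?_⟩
    rw [Fintype.linearCombination_apply]
  obtain ⟨σ, hσ⟩ : ∃ σ : (Option {a // a ∈ E} → ZMod 2) →ₗ[ZMod 2] ZMod 2,
    ∀ c, σ c = ∑ i, c i • s i := by
    refine ⟨Fintype.linearCombination (ZMod 2) s, fun c => ?_⟩
    rw [Fintype.linearCombination_apply]
  have hker : σ ∈ (LinearMap.ker Φ).dualAnnihilator := by
    rw [Submodule.mem_dualAnnihilator]
    intro c hc
    rw [LinearMap.mem_ker, hΦ, Fintype.sum_option] at hc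
    rw [hσ, Fintype.sum_option]
    obtain ⟨F, hF⟩ : ∃ F : Finset ℤ,
      F = (univ.filter (fun a : {a // a ∈ E} => c (some a) = 1)).image Subtype.val := ⟨_, rfl⟩
    have hFE : F ⊆ E := by
      intro a ha
      rw [hF, Finset.mem_image] at ha
      obtain ⟨b, _, rfl⟩ := ha
      exact b.2
    have hF0 : ∀ a ∈ F, a ≠ 0 := fun a ha h1 => h0 (h1 ▸ hFE ha)
    have h01 : ∀ x : ZMod 2, x = 0 ∨ x = 1 := by decide
    have hsumF : ∀ {M : Type} [AddCommGroup M] [Module (ZMod 2) M] (g : ℤ → M),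
        ∑ a : {a // a ∈ E}, c (some a) • g a.1 = ∑ a ∈ F, g a := by
      intro M _ _ g
      rw [hF, Finset.sum_image (fun a _ b _ hab => Subtype.ext hab), Finset.sum_filter]
      refine Finset.sum_congr rfl (fun a _ => ?_)
      rcases h01 (c (some a)) with h1 | h1
      · rw [h1, zero_smul, if_neg (by decide)]
      · rw [h1, one_smul, if_pos rfl]
    have e1 : ∑ a : {a // a ∈ E}, c (some a) • w (some a) = vv (∏ a ∈ F, a) := by
      rw [vv_prod F hF0, ← hsumF vv, hw]
      rfl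
    have e2 : ∑ a : {a // a ∈ E}, c (some a) • s (some a) = ((F ∩ T).card : ZMod 2) := by
      have e3 : ∑ a : {a // a ∈ E}, c (some a) • s (some a) =
          ∑ a ∈ F, (if a ∈ T then (1 : ZMod 2) else 0) := by
        rw [← hsumF (fun a => if a ∈ T then (1 : ZMod 2) else 0), hs]
        rfl
      rw [e3, ← Finset.sum_filter, Finset.sum_const, nsmul_eq_mul, mul_one,
        Finset.filter_mem_eq_inter]
    have e4 : w none = vv (-3) := by rw [hw]; rfl
    have e5 : s none = 1 := by rw [hs]; rfl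
    rw [e1, e4] at hc
    rw [e2, e5]
    have hP0 : ∏ a ∈ F, a ≠ 0 := Finset.prod_ne_zero_iff.mpr hF0
    rcases h01 (c none) with h1 | h1
    · rw [h1, zero_smul, zero_add] at hc ⊢
      have h2 := isSquare_of_vv hP0 hc
      have h3 : ¬ Odd (F ∩ T).card := fun h4 => (h F hFE).1 h4 h2
      rw [Nat.not_odd_iff_even] at h3
      exact (ZMod.natCast_eq_zero_iff _ 2).mpr (even_iff_two_dvd.mp h3)
    · rw [h1, one_smul] at hc
      rw [h1, one_smul]
      rw [← vv_mul (by norm_num) hP0] at hc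
      have h2 := isSquare_of_vv (mul_ne_zero (by norm_num) hP0) hc
      have h3 : ¬ Even (F ∩ T).card := fun h4 => (h F hFE).2 h4 h2
      rw [Nat.not_even_iff_odd] at h3
      obtain ⟨m, hm⟩ := h3
      rw [hm]
      push_cast
      have h4 : (2 : ZMod 2) = 0 := by decide
      rw [h4, zero_mul, zero_add]
      decide
  rw [← LinearMap.range_dualMap_eq_dualAnnihilator_ker] at hker
  obtain ⟨φ, hφ⟩ := hker
  have hφw : ∀ i, φ (w i) = s i := by
    intro i
    have h1 : Φ.dualMap φ (Pi.single i 1) = σ (Pi.single i 1) := by rw [hφ]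
    rw [LinearMap.dualMap_apply, hΦ, hσ] at h1
    simpa [Pi.single_apply] using h1
  refine ⟨fun a => if φ (vv a) = 0 then 1 else -1, ?_, ?_, ?_, ?_⟩
  · intro a _
    by_cases h1 : φ (vv a) = 0
    · left; simp [h1]
    · right; simp [h1]
  · intro a b ha hb
    have h01 : ∀ x y : ZMod 2, (if x + y = 0 then (1:ℤ) else -1) =
        (if x = 0 then 1 else -1) * (if y = 0 then 1 else -1) := by decide
    show (if φ (vv (a * b)) = 0 then (1:ℤ) else -1) = _
    rw [vv_mul ha hb, map_add]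
    exact h01 _ _
  · have h1 := hφw none
    rw [hw, hs] at h1
    have h2 : φ (vv (-3)) = 1 := h1
    show (if φ (vv (-3)) = 0 then (1:ℤ) else -1) = -1
    rw [h2, if_neg (by decide)]
  · intro a ha
    have h1 := hφw (some ⟨a, ha⟩)
    rw [hw, hs] at h1
    have h2 : φ (vv a) = if a ∈ T then 1 else 0 := h1
    show (if φ (vv a) = 0 then (1:ℤ) else -1) = -1 ↔ _
    rw [h2]
    by_cases h3 : a ∈ T
    · rw [if_pos h3, if_neg (by decide)]
      exact ⟨fun _ => h3, fun _ => rfl⟩
    · rw [if_neg h3, if_pos rfl]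
      constructor
      · intro h4; norm_num at h4
      · intro h4; exact absurd h4 h3

end Vale.Agent.P016.FE.H250
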