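import Mathlib

/-!
# Simultaneous primitive roots: a residue class with a prescribed quadratic pattern
-/

open Finset

namespace Vale.Agent.P016.FE.H250

theorem class_of_char (E : Finset ℤ) (h0 : (0 : ℤ) ∉ E) (χ : ℤ → ℤ)
    (h1 : ∀ a, a ≠ 0 → χ a = 1 ∨ χ a = -1)
    (h2 : ∀ a b, a ≠ 0 → b ≠ 0 → χ (a * b) = χ a * χ b) (h3 : χ (-3) = -1) :
    ∃ (b : ℕ) (S T : Finset ℕ), b < 24 ∧ Nat.Coprime b 24 ∧ b % 3 = 2 ∧
      (∀ l ∈ S, l.Prime ∧ 5 ≤ l) ∧ ∃ p₀ : ℕ, ∀ p : ℕ, p.Prime → p₀ ≤ p → p % 24 = b →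
        (∀ l ∈ S, (IsSquare (l : ZMod p) ↔ l ∉ T)) → ∀ a ∈ E, (IsSquare (a : ZMod p) ↔ χ a = 1) := by
  classical
  -- the values at `1`, `3`
  have hone : χ 1 = 1 := by
    have h := h2 1 1 one_ne_zero one_ne_zero
    rw [mul_one] at h
    rcases h1 1 one_ne_zero with h' | h'
    · exact h'
    · rw [h'] at h; norm_num at h
  have hthree : χ 3 = -χ (-1) := by
    have h := h2 (-1) 3 (by norm_num) (by norm_num)
    rw [show (-1 : ℤ) * 3 = -3 by norm_num, h3] at h
    rcases h1 (-1) (by norm_num) with h' | h' <;> rw [h'] at h ⊢ <;> linarith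
  set N : ℕ := ∑ a ∈ E, a.natAbs with hN
  set S : Finset ℕ := (range (N + 1)).filter (fun l => l.Prime ∧ 5 ≤ l) with hS
  set T : Finset ℕ := S.filter (fun l => χ l = -1) with hT
  -- the class
  obtain ⟨b, hb1, hb2, hb3, hb4⟩ : ∃ b : ℕ, b < 24 ∧ Nat.Coprime b 24 ∧ b % 3 = 2 ∧
      ((χ (-1) = 1 ∧ χ 2 = -1 ∧ b = 5) ∨ (χ (-1) = -1 ∧ χ 2 = -1 ∧ b = 11) ∨
        (χ (-1) = 1 ∧ χ 2 = 1 ∧ b = 17) ∨ (χ (-1) = -1 ∧ χ 2 = 1 ∧ b = 23)) := by
    rcases h1 (-1) (by norm_num) with ha | ha <;> rcases h1 2 (by norm_num) with hb | hb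
    · exact ⟨17, by norm_num, by decide, by norm_num, by tauto⟩
    · exact ⟨5, by norm_num, by decide, by norm_num, by tauto⟩
    · exact ⟨23, by norm_num, by decide, by norm_num, by tauto⟩
    · exact ⟨11, by norm_num, by decide, by norm_num, by tauto⟩
  refine ⟨b, S, T, hb1, hb2, hb3, ?_, N + 5, ?_⟩
  · intro l hl
    rw [hS, mem_filter] at hl
    exact hl.2
  intro p hp hp0 hpb hsq
  have : Fact p.Prime := ⟨hp⟩
  have hp2 : p ≠ 2 := by omega
  have hp3 : p ≠ 3 := by omega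
  -- nonvanishing
  have hnz : ∀ a : ℤ, a ≠ 0 → a.natAbs ≤ N + 4 → (a : ZMod p) ≠ 0 := by
    intro a ha haN h
    rw [ZMod.intCast_zmod_eq_zero_iff_dvd] at h
    have := Nat.le_of_dvd (Int.natAbs_pos.2 ha) (Int.natCast_dvd.1 h)
    omega
  -- `-1`
  have e1 : legendreSym p (-1) = χ (-1) := by
    rw [legendreSym.at_neg_one hp2]
    rcases hb4 with ⟨ha, -, rfl⟩ | ⟨ha, -, rfl⟩ | ⟨ha, -, rfl⟩ | ⟨ha, -, rfl⟩
    · rw [ha]; exact ZMod.χ₄_nat_one_mod_four (by omega)
    · rw [ha]; exact ZMod.χ₄_nat_three_mod_four (by omega)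
    · rw [ha]; exact ZMod.χ₄_nat_one_mod_four (by omega)
    · rw [ha]; exact ZMod.χ₄_nat_three_mod_four (by omega)
  have e2 : legendreSym p 2 = χ 2 := by
    rw [legendreSym.at_two hp2, ZMod.χ₈_nat_eq_if_mod_eight]
    rcases hb4 with ⟨-, ha, rfl⟩ | ⟨-, ha, rfl⟩ | ⟨-, ha, rfl⟩ | ⟨-, ha, rfl⟩
    · rw [ha, if_neg (by omega), if_neg (by omega)]
    · rw [ha, if_neg (by omega), if_neg (by omega)]
    · rw [ha, if_neg (by omega), if_pos (by omega)]
    · rw [ha, if_neg (by omega), if_pos (by omega)]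
  have hp3' : legendreSym 3 (p : ℤ) = -1 := by
    have h4 : ((p : ℤ) : ZMod 3) = 2 := by
      have h5 : (p : ZMod 3) = ((2 : ℕ) : ZMod 3) := by
        rw [ZMod.natCast_eq_natCast_iff]
        unfold Nat.ModEq
        omega
      push_cast at h5 ⊢
      exact h5
    rw [legendreSym, h4]
    decide
  have e3 : legendreSym p 3 = χ 3 := by
    rw [hthree, ← e1, legendreSym.at_neg_one hp2]
    have hpo : p % 4 = 1 ∨ p % 4 = 3 := by
      have := hp.eq_two_or_odd
      omega
    rcases hpo with h | h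
    · rw [ZMod.χ₄_nat_one_mod_four h]
      have h5 := legendreSym.quadratic_reciprocity_one_mod_four (p := p) (q := 3) h (by norm_num)
      rw [hp3'] at h5
      have h6 : legendreSym p ((3 : ℕ) : ℤ) = legendreSym p 3 := by norm_num
      rw [← h6, ← h5]
    · rw [ZMod.χ₄_nat_three_mod_four h]
      have h5 := legendreSym.quadratic_reciprocity_three_mod_four (p := p) (q := 3) h (by norm_num)
      rw [hp3'] at h5
      have h6 : legendreSym p ((3 : ℕ) : ℤ) = legendreSym p 3 := by norm_num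
      rw [h6] at h5
      linarith
  -- primes
  have e4 : ∀ l : ℕ, l.Prime → l ≤ N → legendreSym p (l : ℤ) = χ l := by
    intro l hl hlN
    by_cases hl5 : 5 ≤ l
    · have hlS : l ∈ S := by
        rw [hS, mem_filter, mem_range]
        exact ⟨by omega, hl, hl5⟩
      have hl0 : ((l : ℤ) : ZMod p) ≠ 0 := hnz l (by exact_mod_cast hl.ne_zero) (by
        rw [Int.natAbs_natCast]; omega)
      have h4 := hsq l hlS
      have h5 : (IsSquare ((l : ℤ) : ZMod p) ↔ l ∉ T) := by
        have h6 : ((l : ℤ) : ZMod p) = (l : ZMod p) := by push_cast; rfl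
        rw [h6]
        exact h4
      rcases h1 l (by exact_mod_cast hl.ne_zero) with h | h
      · rw [h, legendreSym.eq_one_iff p hl0, h5, hT, mem_filter]
        rintro ⟨-, h6⟩
        rw [h] at h6
        norm_num at h6
      · rw [h, legendreSym.eq_neg_one_iff, h5, not_not, hT, mem_filter]
        exact ⟨hlS, h⟩
    · have : l = 2 ∨ l = 3 := by
        have := hl.two_le
        interval_cases l
        · exact Or.inl rfl
        · exact Or.inr rfl
        · exact absurd hl (by norm_num)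
      rcases this with rfl | rfl
      · exact_mod_cast e2
      · exact_mod_cast e3
  -- naturals
  have e5 : ∀ n : ℕ, n ≠ 0 → n ≤ N → legendreSym p (n : ℤ) = χ n := by
    intro n
    induction n using Nat.recOnMul with
    | zero => intro h; exact absurd rfl h
    | one => intro _ _; simp [hone, legendreSym.at_one]
    | prime l hl => intro _ h; exact e4 l hl h
    | mul a b iha ihb =>
      intro hab hN'
      have ha : a ≠ 0 := fun h => hab (by rw [h, zero_mul])
      have hb : b ≠ 0 := fun h => hab (by rw [h, mul_zero])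
      have haN : a ≤ N := le_trans (Nat.le_mul_of_pos_right _ (Nat.pos_of_ne_zero hb)) hN'
      have hbN : b ≤ N := le_trans (Nat.le_mul_of_pos_left _ (Nat.pos_of_ne_zero ha)) hN'
      push_cast
      rw [legendreSym.mul, iha ha haN, ihb hb hbN, h2 a b (by exact_mod_cast ha)
        (by exact_mod_cast hb)]
  intro a ha
  have ha0 : a ≠ 0 := fun h => h0 (h ▸ ha)
  have haN : a.natAbs ≤ N := Finset.single_le_sum (f := fun a : ℤ => a.natAbs)
    (fun i _ => Nat.zero_le _) ha
  have hap : (a : ZMod p) ≠ 0 := hnz a ha0 (by omega)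
  have e6 : legendreSym p a = χ a := by
    rcases Int.natAbs_eq a with h | h
    · rw [h]
      exact e5 a.natAbs (Int.natAbs_ne_zero.2 ha0) haN
    · rw [h, show -((a.natAbs : ℕ) : ℤ) = (-1) * (a.natAbs : ℤ) by ring, legendreSym.mul, e1,
        e5 a.natAbs (Int.natAbs_ne_zero.2 ha0) haN,
        h2 (-1) _ (by norm_num) (by exact_mod_cast Int.natAbs_ne_zero.2 ha0)]
  rw [← e6, legendreSym.eq_one_iff p hap]

end Vale.Agent.P016.FE.H250
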