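import Mathlib

/-!
# Simultaneous primitive roots: compactness
-/

open Finset Filter

namespace Vale.Agent.P016.FE.H250

/-- if every finite subset of `U` has the property outside an exceptional set of at most `K`
elements, one exceptional set serves all finite subsets -/
theorem compactness {α : Type*} (K : ℕ) (U : Set α) (Q : Finset α → Finset α → Prop)
    (hmono : ∀ F F' E, F ⊆ F' → Q F' E → Q F E)
    (hloc : ∀ F E E' : Finset α, (∀ a ∈ F, (a ∈ E ↔ a ∈ E')) → Q F E → Q F E')
    (h : ∀ F : Finset α, (F : Set α) ⊆ U → ∃ E : Finset α, E ⊆ F ∧ E.card ≤ K ∧ Q F E) :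
    ∃ E : Finset α, (E : Set α) ⊆ U ∧ E.card ≤ K ∧ ∀ F : Finset α, (F : Set α) ⊆ U → Q F E := by
  classical
  have h' : ∀ F : Finset α, ∃ E : Finset α, (E : Set α) ⊆ U ∧ E.card ≤ K ∧
      Q (F.filter (fun a => a ∈ U)) E := by
    intro F
    obtain ⟨E, h1, h2, h3⟩ := h (F.filter (fun a => a ∈ U)) (by
      intro a ha
      exact (Finset.mem_filter.1 (Finset.mem_coe.1 ha)).2)
    exact ⟨E, fun a ha => (Finset.mem_filter.1 (h1 ha)).2, h2, h3⟩
  choose E hE1 hE2 hE3 using h'
  let V : Ultrafilter (Finset α) := Ultrafilter.of (atTop : Filter (Finset α))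
  have hV : (V : Filter (Finset α)) ≤ atTop := Ultrafilter.of_le _
  let W : Set α := {a | ∀ᶠ F in (V : Filter (Finset α)), a ∈ E F}
  have hWn : ∀ a, a ∉ W → ∀ᶠ F in (V : Filter (Finset α)), a ∉ E F := by
    intro a ha
    exact (Ultrafilter.eventually_not (f := V)).2 ha
  -- finite subsets of `W`
  have hWc : ∀ F : Finset α, (F : Set α) ⊆ W → F.card ≤ K := by
    intro F hF
    have h1 : ∀ᶠ F' in (V : Filter (Finset α)), ∀ a ∈ F, a ∈ E F' := by
      rw [Filter.eventually_all_finset]
      exact fun a ha => hF ha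
    obtain ⟨F', hF'⟩ := h1.exists
    exact (Finset.card_le_card (fun a ha => hF' a ha)).trans (hE2 F')
  have hWfin : W.Finite := by
    by_contra hinf
    obtain ⟨F, hF1, hF2⟩ := Set.Infinite.exists_subset_card_eq hinf (K + 1)
    have := hWc F hF1
    omega
  refine ⟨hWfin.toFinset, ?_, ?_, ?_⟩
  · intro a ha
    rw [Set.Finite.coe_toFinset] at ha
    obtain ⟨F, hF⟩ := ha.exists
    exact hE1 F hF
  · apply hWc
    rw [Set.Finite.coe_toFinset]
  · intro F hF
    have h1 : ∀ᶠ F' in (V : Filter (Finset α)), ∀ a ∈ F, (a ∈ E F' ↔ a ∈ hWfin.toFinset) := by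
      rw [Filter.eventually_all_finset]
      intro a _
      by_cases ha : a ∈ W
      · have h2 : ∀ᶠ F in (V : Filter (Finset α)), a ∈ E F := ha
        filter_upwards [h2] with F' hF'
        simp only [Set.Finite.mem_toFinset]
        exact ⟨fun _ => ha, fun _ => hF'⟩
      · filter_upwards [hWn a ha] with F' hF'
        simp only [Set.Finite.mem_toFinset]
        exact ⟨fun h => absurd h hF', fun h => absurd h ha⟩
    have h2 : ∀ᶠ F' in (V : Filter (Finset α)), F ⊆ F' := hV (eventually_ge_atTop F)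
    obtain ⟨F', hF1, hF2⟩ := (h1.and h2).exists
    apply hloc F (E F') _ hF1
    apply hmono F (F'.filter (fun a => a ∈ U)) _ _ (hE3 F')
    intro a ha
    exact Finset.mem_filter.2 ⟨hF2 ha, hF ha⟩

/-- the same without a bound for the exceptional sets -/
theorem compactness' {α : Type*} (Q : Finset α → Set α → Prop)
    (hmono : ∀ F F' E, F ⊆ F' → Q F' E → Q F E)
    (hloc : ∀ (F : Finset α) (E E' : Set α), (∀ a ∈ F, (a ∈ E ↔ a ∈ E')) → Q F E → Q F E')
    (h : ∀ F : Finset α, ∃ E : Set α, Q F E) : ∃ E : Set α, ∀ F : Finset α, Q F E := by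
  classical
  choose E hE using h
  let V : Ultrafilter (Finset α) := Ultrafilter.of (atTop : Filter (Finset α))
  have hV : (V : Filter (Finset α)) ≤ atTop := Ultrafilter.of_le _
  let W : Set α := {a | ∀ᶠ F in (V : Filter (Finset α)), a ∈ E F}
  refine ⟨W, fun F => ?_⟩
  have h1 : ∀ᶠ F' in (V : Filter (Finset α)), ∀ a ∈ F, (a ∈ E F' ↔ a ∈ W) := by
    rw [Filter.eventually_all_finset]
    intro a _
    by_cases ha : a ∈ W
    · have h2 : ∀ᶠ F in (V : Filter (Finset α)), a ∈ E F := ha
      filter_upwards [h2] with F' hF'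
      exact ⟨fun _ => ha, fun _ => hF'⟩
    · have h2 : ∀ᶠ F in (V : Filter (Finset α)), a ∉ E F :=
        (Ultrafilter.eventually_not (f := V)).2 ha
      filter_upwards [h2] with F' hF'
      exact ⟨fun h => absurd h hF', fun h => absurd h ha⟩
  have h2 : ∀ᶠ F' in (V : Filter (Finset α)), F ⊆ F' := hV (eventually_ge_atTop F)
  obtain ⟨F', hF1, hF2⟩ := (h1.and h2).exists
  exact hloc F (E F') _ hF1 (hmono F F' _ hF2 (hE F'))

end Vale.Agent.P016.FE.H250
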