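import Vale.Agent.P016.R2.H250.C

/-!
# Simultaneous primitive roots, part D: prescribed quadratic characters
-/

open Finset Real Filter

namespace Vale.Agent.P016.FE.H250

/-- quadratic reciprocity -/
lemma sq_iff {p l : ℕ} [Fact p.Prime] [Fact l.Prime] (hp2 : p ≠ 2) (hl : 5 ≤ l) (hlp : l ≠ p)
    {b : ℕ} (hpb : p % 4 = b % 4) (s : ℤ)
    (hu : quadraticChar (ZMod l) (p : ZMod l) = if l % 4 = 3 ∧ b % 4 = 3 then -s else s) :
    IsSquare (l : ZMod p) ↔ s = 1 := by
  have hlP : l.Prime := Fact.out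
  have hpP : p.Prime := Fact.out
  have hl2 : l ≠ 2 := by omega
  have hl0 : ((l : ℤ) : ZMod p) ≠ 0 := by
    intro h
    rw [ZMod.intCast_zmod_eq_zero_iff_dvd] at h
    have h1 : p ∣ l := by exact_mod_cast h
    exact hlp ((Nat.prime_dvd_prime_iff_eq hpP hlP).1 h1).symm
  have h1 : legendreSym l (p : ℤ) = if l % 4 = 3 ∧ b % 4 = 3 then -s else s := by
    rw [← hu, legendreSym]
    push_cast
    rfl
  have h2 : legendreSym p (l : ℤ) = s := by
    have hlo : l % 4 = 1 ∨ l % 4 = 3 := by
      have := hlP.eq_two_or_odd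
      omega
    have hpo : p % 4 = 1 ∨ p % 4 = 3 := by
      have := hpP.eq_two_or_odd
      omega
    rcases hlo with hlo | hlo
    · rw [if_neg (by omega)] at h1
      rw [← h1]
      exact legendreSym.quadratic_reciprocity_one_mod_four hlo hp2
    · rcases hpo with hpo | hpo
      · rw [if_neg (by omega)] at h1
        rw [← h1]
        exact (legendreSym.quadratic_reciprocity_one_mod_four hpo hl2).symm
      · rw [if_pos ⟨hlo, by omega⟩] at h1
        have h3 := legendreSym.quadratic_reciprocity_three_mod_four hpo hlo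
        rw [h1] at h3
        linarith
  have h3 := legendreSym.eq_one_iff p hl0
  rw [h2] at h3
  have h4 : ((l : ℤ) : ZMod p) = (l : ZMod p) := by push_cast; rfl
  rw [h4] at h3
  exact h3.symm

open Classical in
/-- induction over the prescribed primes -/
lemma step (x : ℕ) (c A : ℝ) (hc : 0 < c) (G T : Finset ℕ) (hL : 0 < log x)
    (hG : ∀ p ∈ G, p.Prime ∧ (log x) ^ A < p ∧ p ≠ 2)
    (hbase : ∀ D b : ℕ, 4 ∣ D → 1 ≤ D → (D : ℝ) ≤ (log x) ^ A → AdmG D b →
        c * (x / (Nat.totient D * (log x) ^ 2)) ≤ ((G.filter (fun p => p % D = b)).card : ℝ))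
    (S : Finset ℕ) : ∀ D b : ℕ, 4 ∣ D → 1 ≤ D → AdmG D b →
      (∀ l ∈ S, l.Prime ∧ 5 ≤ l ∧ ¬ l ∣ D) → ((D * ∏ l ∈ S, l : ℕ) : ℝ) ≤ (log x) ^ A →
      c / 4 ^ S.card * (x / (Nat.totient D * (log x) ^ 2)) ≤
        ((G.filter (fun p => p % D = b ∧ ∀ l ∈ S, (IsSquare (l : ZMod p) ↔ l ∉ T))).card : ℝ) := by
  induction S using Finset.induction_on with
  | empty =>
    intro D b h4 hD hadm _ hDA
    simp only [Finset.prod_empty, mul_one] at hDA
    have h := hbase D b h4 hD hDA hadm
    simpa using h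
  | insert l S hlS ih =>
    intro D b h4 hD hadm hS hDA
    obtain ⟨hlP, hl5, hlD⟩ := hS l (Finset.mem_insert_self _ _)
    have hS' : ∀ l' ∈ S, l'.Prime ∧ 5 ≤ l' ∧ ¬ l' ∣ D :=
      fun l' h => hS l' (Finset.mem_insert_of_mem h)
    have : Fact l.Prime := ⟨hlP⟩
    have hco : Nat.Coprime D l := ((Nat.Prime.coprime_iff_not_dvd hlP).2 hlD).symm
    rw [Finset.prod_insert hlS] at hDA
    have hDl : 1 ≤ D * l := Nat.mul_pos hD hlP.pos
    have hlA : (l : ℝ) ≤ (log x) ^ A := by
      refine le_trans ?_ hDA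
      have h1 : 1 ≤ ∏ l ∈ S, l := Finset.prod_pos fun i hi => (hS' i hi).1.pos
      have h2 : l ≤ D * (l * ∏ l ∈ S, l) := by
        calc l = 1 * (l * 1) := by ring
          _ ≤ D * (l * ∏ l ∈ S, l) := Nat.mul_le_mul hD (Nat.mul_le_mul_left _ h1)
      exact_mod_cast h2
    set s : ℤ := if l ∈ T then -1 else 1 with hs
    set e : ℤ := if l % 4 = 3 ∧ b % 4 = 3 then -s else s with he
    have he1 : e = 1 ∨ e = -1 := by
      rw [he, hs]
      split_ifs <;> norm_num
    set U : Finset (ZMod l) := univ.filter (fun u : ZMod l =>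
      quadraticChar (ZMod l) u = e ∧ u ≠ 1) with hU
    have hUcard : ((l : ℝ) - 1) / 4 ≤ (U.card : ℝ) := count_U l hl5 e he1
    set B := G.filter (fun p => p % D = b ∧ ∀ l' ∈ insert l S, (IsSquare (l' : ZMod p) ↔ l' ∉ T))
      with hB
    have hfib : ∀ u ∈ U, c / 4 ^ S.card * (x / (Nat.totient (D * l) * (log x) ^ 2)) ≤
        ((B.filter (fun p => ((p : ℕ) : ZMod l) = u)).card : ℝ) := by
      intro u hu
      rw [hU, mem_filter] at hu
      obtain ⟨-, hu1, hu2⟩ := hu
      have hbD := hadm.1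
      set k := Nat.chineseRemainder hco b u.val with hk
      have hk1 : (k : ℕ) % D = b := by
        have := k.2.1
        unfold Nat.ModEq at this
        rw [this, Nat.mod_eq_of_lt hbD]
      have hk2 : ((k : ℕ) : ZMod l) = u := by
        have := (ZMod.natCast_eq_natCast_iff _ _ _).2 k.2.2
        rw [this, ZMod.natCast_zmod_val]
      have hklt : (k : ℕ) < D * l := Nat.chineseRemainder_lt_mul hco b u.val (by omega) (by omega)
      have hu0 : u ≠ 0 := by
        rintro rfl
        rw [quadraticChar_zero] at hu1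
        rcases he1 with h | h <;> rw [h] at hu1 <;> norm_num at hu1
      have hkl : ¬ l ∣ (k : ℕ) := by
        intro h
        apply hu0
        rw [← hk2]
        exact (ZMod.natCast_eq_zero_iff _ _).2 h
      have hadm' : AdmG (D * l) (k : ℕ) := by
        refine ⟨hklt, ?_, ?_⟩
        · apply Nat.Coprime.mul_right
          · have g1 := hadm.2.1
            rw [← hk1] at g1
            unfold Nat.Coprime at g1 ⊢
            rw [← g1, Nat.gcd_comm (k : ℕ) D, Nat.gcd_rec D k]
          · rw [Nat.coprime_comm]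
            exact (Nat.Prime.coprime_iff_not_dvd hlP).2 hkl
        · intro q hq hq3 hqD h
          rcases (Nat.Prime.dvd_mul hq).1 hqD with h' | h'
          · apply hadm.2.2 q hq hq3 h'
            rw [← hk1, Nat.mod_mod_of_dvd _ h', h]
          · have hql : q = l := (Nat.prime_dvd_prime_iff_eq hq hlP).1 h'
            subst hql
            apply hu2
            rw [← hk2]
            have g2 : ((k : ℕ) : ZMod q) = ((1 : ℕ) : ZMod q) := by
              rw [ZMod.natCast_eq_natCast_iff]
              unfold Nat.ModEq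
              rw [h, Nat.mod_eq_of_lt hq.one_lt]
            rw [g2, Nat.cast_one]
      have hih := ih (D * l) k (h4.mul_right _) hDl hadm' (by
        intro l' hl'
        obtain ⟨j1, j2, j3⟩ := hS' l' hl'
        refine ⟨j1, j2, ?_⟩
        intro h
        rcases (Nat.Prime.dvd_mul j1).1 h with h' | h'
        · exact j3 h'
        · have : l' = l := (Nat.prime_dvd_prime_iff_eq j1 hlP).1 h'
          rw [this] at hl'
          exact hlS hl') (by
        rw [mul_assoc]
        exact hDA)
      refine hih.trans ?_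
      have hsub : G.filter (fun p => p % (D * l) = k ∧ ∀ l' ∈ S, (IsSquare (l' : ZMod p) ↔ l' ∉ T))
          ⊆ B.filter (fun p => ((p : ℕ) : ZMod l) = u) := by
        intro p hp
        rw [mem_filter] at hp
        obtain ⟨hpG, hpk, hpS⟩ := hp
        obtain ⟨hpP, hpA, hp2⟩ := hG p hpG
        have : Fact p.Prime := ⟨hpP⟩
        have hpD : p % D = b := by
          rw [← hk1, ← hpk, Nat.mod_mod_of_dvd _ ⟨l, rfl⟩]
        have hpl : ((p : ℕ) : ZMod l) = u := by
          rw [← hk2, ZMod.natCast_eq_natCast_iff]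
          unfold Nat.ModEq
          rw [← hpk, Nat.mod_mod_of_dvd _ ⟨D, by ring⟩]
        rw [mem_filter, hB, mem_filter]
        refine ⟨⟨hpG, hpD, ?_⟩, hpl⟩
        intro l' hl'
        rw [Finset.mem_insert] at hl'
        rcases hl' with rfl | hl'
        · have hlp : l' ≠ p := by
            intro h
            rw [← h] at hpA
            linarith
          have h5 := sq_iff (p := p) (l := l') hp2 hl5 hlp (b := b) (by
            rw [← hpD, Nat.mod_mod_of_dvd _ h4]) s (by rw [hpl, hu1])
          rw [h5, hs]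
          by_cases hT : l' ∈ T
          · rw [if_pos hT]
            constructor
            · intro h; norm_num at h
            · intro h; exact absurd hT h
          · rw [if_neg hT]
            exact ⟨fun _ => hT, fun _ => rfl⟩
        · exact hpS l' hl'
      exact_mod_cast Finset.card_le_card hsub
    have hlow : (U.card : ℝ) * (c / 4 ^ S.card * (x / (Nat.totient (D * l) * (log x) ^ 2))) ≤
        (B.card : ℝ) := by
      have g1 : ∑ u ∈ U, ((B.filter (fun p => ((p : ℕ) : ZMod l) = u)).card : ℝ) ≤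
          (B.card : ℝ) := by
        have g2 : (U.biUnion (fun u => B.filter (fun p => ((p : ℕ) : ZMod l) = u))).card =
            ∑ u ∈ U, (B.filter (fun p => ((p : ℕ) : ZMod l) = u)).card := by
          apply Finset.card_biUnion
          intro u _ u' _ huu
          rw [Function.onFun, Finset.disjoint_left]
          intro p hp hp'
          rw [mem_filter] at hp hp'
          exact huu (hp.2.symm.trans hp'.2)
        have g3 : (U.biUnion (fun u => B.filter (fun p => ((p : ℕ) : ZMod l) = u))).card ≤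
            B.card := by
          apply Finset.card_le_card
          intro p hp
          rw [mem_biUnion] at hp
          obtain ⟨u, -, hu⟩ := hp
          exact (mem_filter.1 hu).1
        rw [g2] at g3
        exact_mod_cast g3
      refine le_trans ?_ g1
      rw [← nsmul_eq_mul, ← Finset.sum_const]
      exact Finset.sum_le_sum hfib
    refine le_trans ?_ hlow
    have hφ : (Nat.totient (D * l) : ℝ) = Nat.totient D * ((l : ℝ) - 1) := by
      rw [Nat.totient_mul hco, Nat.totient_prime hlP, Nat.cast_mul, Nat.cast_sub hlP.one_lt.le]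
      push_cast
      rfl
    have hφ0 : (0 : ℝ) < Nat.totient D := by exact_mod_cast Nat.totient_pos.2 hD
    have hl1 : (0 : ℝ) < (l : ℝ) - 1 := by
      have : (5 : ℝ) ≤ l := by exact_mod_cast hl5
      linarith
    rw [Finset.card_insert_of_notMem hlS, hφ]
    calc c / 4 ^ (S.card + 1) * (x / (Nat.totient D * (log x) ^ 2))
        = (((l : ℝ) - 1) / 4) *
          (c / 4 ^ S.card * (x / (Nat.totient D * ((l : ℝ) - 1) * (log x) ^ 2))) := by
          field_simp
          ring
      _ ≤ _ := mul_le_mul_of_nonneg_right hUcard (by positivity)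

open Classical in
/-- the main count with prescribed quadratic characters -/
theorem core : ∃ (K : ℕ) (c η : ℝ), 0 < c ∧ 0 < η ∧ ∀ A : ℝ, 0 < A → ∃ x₀ : ℕ, ∀ x : ℕ,
    x₀ ≤ x → ∃ G : Finset ℕ,
      (∀ p ∈ G, p ≤ x ∧ p.Prime ∧ (x : ℝ) / 10 < p ∧ PG K ((x : ℝ) ^ η) p) ∧
      ∀ (T S : Finset ℕ) (D b : ℕ), 4 ∣ D → 1 ≤ D → AdmG D b →
        (∀ l ∈ S, l.Prime ∧ 5 ≤ l ∧ ¬ l ∣ D) → ((D * ∏ l ∈ S, l : ℕ) : ℝ) ≤ (log x) ^ A →
        c / 4 ^ S.card * (x / (Nat.totient D * (log x) ^ 2)) ≤
          ((G.filter (fun p => p % D = b ∧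
            ∀ l ∈ S, (IsSquare (l : ZMod p) ↔ l ∉ T))).card : ℝ) := by
  obtain ⟨K, c, η, hc, hη, h⟩ := base
  refine ⟨K, c, η, hc, hη, fun A hA => ?_⟩
  obtain ⟨x₁, h⟩ := h A hA
  obtain ⟨x₂, hx₂⟩ := eventually_atTop.1 ((Vale.Agent.P013.J.ev_const_le_log 1).and
    ((Vale.Agent.P013.J.ev_log_le A 10 1 (by norm_num)).and (eventually_ge_atTop 100)))
  refine ⟨max x₁ x₂, fun x hx => ?_⟩
  obtain ⟨e1, e2, e3⟩ := hx₂ x ((le_max_right _ _).trans hx)
  obtain ⟨G, hG, hbase⟩ := h x ((le_max_left _ _).trans hx)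
  rw [Real.rpow_one] at e2
  have hx100 : (100 : ℝ) ≤ x := by exact_mod_cast e3
  refine ⟨G, hG, fun T S D b h4 hD hadm hS hDA => ?_⟩
  refine step x c A hc G T (by linarith) ?_ hbase S D b h4 hD hadm hS hDA
  intro p hp
  obtain ⟨-, g2, g3, -⟩ := hG p hp
  refine ⟨g2, by linarith, ?_⟩
  rintro rfl
  push_cast at g3
  linarith

end Vale.Agent.P016.FE.H250
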