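import Vale.Agent.P016.R2.H250.D
import Vale.Agent.P016.R2.H250.Cpt

/-!
# Simultaneous primitive roots, part E: patterns with one fixed exceptional set
-/

open Finset Real Filter

namespace Vale.Agent.P016.FE.H250

/-- inside the class `b₀` modulo `D₀` there is an admissible class, with prescribed characters of
finitely many primes, in which exactly the elements of `T` among those of `F` are nonsquares -/
def HasCls (D₀ b₀ : ℕ) (T : Set ℤ) (F : Finset ℤ) : Prop :=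
  ∃ (D b : ℕ) (S T' : Finset ℕ), 4 ∣ D ∧ 1 ≤ D ∧ AdmG D b ∧ (∀ p : ℕ, p % D = b → p % D₀ = b₀) ∧
    (∀ l ∈ S, l.Prime ∧ 5 ≤ l ∧ ¬ l ∣ D) ∧ ∃ p₀ : ℕ, ∀ p : ℕ, p.Prime → p₀ ≤ p → p % D = b →
      (∀ l ∈ S, (IsSquare (l : ZMod p) ↔ l ∉ T')) → ∀ a ∈ F, (IsSquare (a : ZMod p) ↔ a ∉ T)

/-- the primes counted -/
noncomputable def cnt (D₀ b₀ : ℕ) (T : Set ℤ) (F E : Finset ℤ) (x : ℕ) : Finset ℕ := by
  classical
  exact (range (x + 1)).filter (fun p => p.Prime ∧ p % D₀ = b₀ ∧ ∀ a ∈ F, ¬ (p : ℤ) ∣ a ∧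
    (IsSquare (a : ZMod p) ↔ a ∉ T) ∧ (a ∉ E → Ind2 p a))

lemma mem_cnt {D₀ b₀ : ℕ} {T : Set ℤ} {F E : Finset ℤ} {x p : ℕ} :
    p ∈ cnt D₀ b₀ T F E x ↔ p ≤ x ∧ p.Prime ∧ p % D₀ = b₀ ∧ ∀ a ∈ F, ¬ (p : ℤ) ∣ a ∧
    (IsSquare (a : ZMod p) ↔ a ∉ T) ∧ (a ∉ E → Ind2 p a) := by
  classical
  unfold cnt
  rw [mem_filter, mem_range, Nat.lt_succ_iff]

/-- the order of magnitude `x / (log x)^2`, for arbitrarily large `x` -/
def QQ (D₀ b₀ : ℕ) (T : Set ℤ) (F E : Finset ℤ) : Prop :=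
  ∃ c₁ : ℝ, 0 < c₁ ∧ ∃ᶠ x : ℕ in atTop,
    c₁ * (x / (log x) ^ 2) ≤ ((cnt D₀ b₀ T F E x).card : ℝ)

open Classical in
/-- the conclusion of `core`, for fixed constants -/
def Core (K : ℕ) (c η : ℝ) : Prop := ∀ A : ℝ, 0 < A → ∃ x₀ : ℕ, ∀ x : ℕ,
    x₀ ≤ x → ∃ G : Finset ℕ,
      (∀ p ∈ G, p ≤ x ∧ p.Prime ∧ (x : ℝ) / 10 < p ∧ PG K ((x : ℝ) ^ η) p) ∧
      ∀ (T S : Finset ℕ) (D b : ℕ), 4 ∣ D → 1 ≤ D → AdmG D b →
        (∀ l ∈ S, l.Prime ∧ 5 ≤ l ∧ ¬ l ∣ D) → ((D * ∏ l ∈ S, l : ℕ) : ℝ) ≤ (log x) ^ A →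
        c / 4 ^ S.card * (x / (Nat.totient D * (log x) ^ 2)) ≤
          ((G.filter (fun p => p % D = b ∧
            ∀ l ∈ S, (IsSquare (l : ZMod p) ↔ l ∉ T))).card : ℝ)

open Classical in
lemma pigeon1 (K : ℕ) (c η : ℝ) (hc : 0 < c) (hη : 0 < η) (hcore : Core K c η) (D₀ b₀ : ℕ)
    (T : Set ℤ) (F : Finset ℤ) (hF : Indep F) (hcls : HasCls D₀ b₀ T F) :
    ∃ c₁ : ℝ, 0 < c₁ ∧ ∀ᶠ x : ℕ in atTop, ∃ E ∈ F.powerset.filter (fun E => E.card ≤ K),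
      c₁ * (x / (log x) ^ 2) ≤ ((cnt D₀ b₀ T F E x).card : ℝ) := by
  obtain ⟨D, b, S, T', h4, hD, hadm, hDD, hS, p₀, hp₀⟩ := hcls
  obtain ⟨x₁, h⟩ := hcore 1 one_pos
  have hφ0 : (0 : ℝ) < Nat.totient D := by exact_mod_cast Nat.totient_pos.2 hD
  set M : ℝ := ∑ a ∈ F, |(a : ℝ)| with hM
  refine ⟨c / 4 ^ S.card / Nat.totient D / 2 ^ F.card, by positivity, ?_⟩
  filter_upwards [eventually_ge_atTop x₁,
    Vale.Agent.P013.J.ev_const_le_log ((D * ∏ l ∈ S, l : ℕ) : ℝ),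
    Vale.Agent.P013.J.ev_const_le_rpow M η hη, Vale.Agent.P013.J.ev_const_le_rpow (10 * M) 1 one_pos,
    Vale.Agent.P013.J.ev_const_le_rpow (10 * p₀) 1 one_pos,
    Vale.Agent.P013.J.ev_const_le_log 1] with x e1 e2 e3 e4 e5 e6
  rw [Real.rpow_one] at e4 e5
  obtain ⟨G, hG, hcount⟩ := h x e1
  have h1 := hcount T' S D b h4 hD hadm hS (by rw [Real.rpow_one]; exact e2)
  have hL0 : 0 < log x := by linarith
  by_contra hcon
  push Not at hcon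
  set PP := F.powerset.filter (fun E => E.card ≤ K) with hPP
  have hne : (∅ : Finset ℤ) ∈ PP := by
    rw [hPP, mem_filter, mem_powerset]
    exact ⟨Finset.empty_subset _, by simp⟩
  have hPPc : (PP.card : ℝ) ≤ 2 ^ F.card := by
    have : PP.card ≤ 2 ^ F.card := by
      rw [← Finset.card_powerset]
      exact Finset.card_filter_le _ _
    exact_mod_cast this
  have hsub : G.filter (fun p => p % D = b ∧ ∀ l ∈ S, (IsSquare (l : ZMod p) ↔ l ∉ T')) ⊆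
      PP.biUnion (fun E => cnt D₀ b₀ T F E x) := by
    intro p hp
    rw [mem_filter] at hp
    obtain ⟨hpG, hpb, hpS⟩ := hp
    obtain ⟨g1, g2, g3, g4⟩ := hG p hpG
    rw [mem_biUnion]
    have hp0 : p₀ ≤ p := by
      have : (p₀ : ℝ) ≤ p := by linarith
      exact_mod_cast this
    have haM : ∀ a ∈ F, |(a : ℝ)| ≤ M := fun a ha =>
      Finset.single_le_sum (f := fun a : ℤ => |(a : ℝ)|) (fun i _ => abs_nonneg _) ha
    refine ⟨F.filter (fun a => ¬ Ind2 p a), ?_, ?_⟩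
    · rw [hPP, mem_filter, mem_powerset]
      exact ⟨Finset.filter_subset _ _, g4 F hF (fun a ha => (haM a ha).trans e3)⟩
    · rw [mem_cnt]
      refine ⟨g1, g2, hDD p hpb, ?_⟩
      intro a ha
      refine ⟨?_, hp₀ p g2 hp0 hpb hpS a ha, ?_⟩
      · intro hdvd
        have ha0 : a ≠ 0 := by
          rintro rfl
          exact zero_notMem_of_indep hF ha
        have h2 : p ≤ a.natAbs := Nat.le_of_dvd (Int.natAbs_pos.2 ha0) (Int.natCast_dvd.1 hdvd)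
        have h3 : (p : ℝ) ≤ |(a : ℝ)| := by
          have h5 : ((a.natAbs : ℕ) : ℝ) = |(a : ℝ)| := by
            rw [Nat.cast_natAbs]
            push_cast
            rfl
          rw [← h5]
          exact_mod_cast h2
        have h4 := haM a ha
        linarith
      · intro hn
        by_contra hni
        exact hn (mem_filter.2 ⟨ha, hni⟩)
  have h2 : ((G.filter (fun p => p % D = b ∧
      ∀ l ∈ S, (IsSquare (l : ZMod p) ↔ l ∉ T'))).card : ℝ) ≤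
      ∑ E ∈ PP, ((cnt D₀ b₀ T F E x).card : ℝ) := by
    exact_mod_cast (Finset.card_le_card hsub).trans Finset.card_biUnion_le
  have h3 : ∑ E ∈ PP, ((cnt D₀ b₀ T F E x).card : ℝ) <
      ∑ _E ∈ PP, (c / 4 ^ S.card / Nat.totient D / 2 ^ F.card * (x / (log x) ^ 2)) :=
    Finset.sum_lt_sum_of_nonempty ⟨∅, hne⟩ hcon
  rw [Finset.sum_const, nsmul_eq_mul] at h3
  have h5 : (PP.card : ℝ) * (c / 4 ^ S.card / Nat.totient D / 2 ^ F.card * (x / (log x) ^ 2)) ≤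
      2 ^ F.card * (c / 4 ^ S.card / Nat.totient D / 2 ^ F.card * (x / (log x) ^ 2)) :=
    mul_le_mul_of_nonneg_right hPPc (by positivity)
  have h6 : (2 : ℝ) ^ F.card * (c / 4 ^ S.card / Nat.totient D / 2 ^ F.card * (x / (log x) ^ 2)) =
      c / 4 ^ S.card * (x / (Nat.totient D * (log x) ^ 2)) := by
    field_simp
  linarith

open Classical in
lemma pigeon2 (K : ℕ) (c η : ℝ) (hc : 0 < c) (hη : 0 < η) (hcore : Core K c η) (D₀ b₀ : ℕ)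
    (T : Set ℤ) (F : Finset ℤ) (hF : Indep F) (hcls : HasCls D₀ b₀ T F) :
    ∃ E : Finset ℤ, E ⊆ F ∧ E.card ≤ K ∧ QQ D₀ b₀ T F E := by
  obtain ⟨c₁, hc₁, h⟩ := pigeon1 K c η hc hη hcore D₀ b₀ T F hF hcls
  by_contra hcon
  push Not at hcon
  have h1 : ∀ᶠ x : ℕ in atTop, ∀ E ∈ F.powerset.filter (fun E => E.card ≤ K),
      ¬ c₁ * (x / (log x) ^ 2) ≤ ((cnt D₀ b₀ T F E x).card : ℝ) := by
    rw [Filter.eventually_all_finset]
    intro E hE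
    rw [mem_filter, mem_powerset] at hE
    have h2 := hcon E hE.1 hE.2
    unfold QQ at h2
    rw [← Filter.not_frequently]
    intro h3
    exact h2 ⟨c₁, hc₁, h3⟩
  obtain ⟨x, ⟨E, hE1, hE2⟩, h4⟩ := (h.and h1).exists
  exact h4 E hE1 hE2

/-- patterns with one fixed exceptional set -/
theorem pattern (K : ℕ) (c η : ℝ) (hc : 0 < c) (hη : 0 < η) (hcore : Core K c η) (D₀ b₀ : ℕ)
    (U T : Set ℤ) (hU : ∀ F : Finset ℤ, (F : Set ℤ) ⊆ U → Indep F ∧ HasCls D₀ b₀ T F) :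
    ∃ E : Finset ℤ, (E : Set ℤ) ⊆ U ∧ E.card ≤ K ∧
      ∀ F : Finset ℤ, (F : Set ℤ) ⊆ U → QQ D₀ b₀ T F E := by
  apply compactness K U (QQ D₀ b₀ T)
  · intro F F' E hFF' hQ
    obtain ⟨c₁, hc₁, h⟩ := hQ
    refine ⟨c₁, hc₁, h.mono fun x hx => hx.trans ?_⟩
    have : cnt D₀ b₀ T F' E x ⊆ cnt D₀ b₀ T F E x := by
      intro p hp
      rw [mem_cnt] at hp ⊢
      exact ⟨hp.1, hp.2.1, hp.2.2.1, fun a ha => hp.2.2.2 a (hFF' ha)⟩
    exact_mod_cast Finset.card_le_card this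
  · intro F E E' hEE hQ
    obtain ⟨c₁, hc₁, h⟩ := hQ
    refine ⟨c₁, hc₁, h.mono fun x hx => hx.trans ?_⟩
    have : cnt D₀ b₀ T F E x ⊆ cnt D₀ b₀ T F E' x := by
      intro p hp
      rw [mem_cnt] at hp ⊢
      refine ⟨hp.1, hp.2.1, hp.2.2.1, fun a ha => ?_⟩
      obtain ⟨g1, g2, g3⟩ := hp.2.2.2 a ha
      exact ⟨g1, g2, fun h => g3 (fun h' => h ((hEE a ha).1 h'))⟩
    exact_mod_cast Finset.card_le_card this
  · intro F hF
    obtain ⟨h1, h2⟩ := hU F hF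
    exact pigeon2 K c η hc hη hcore D₀ b₀ T F h1 h2

end Vale.Agent.P016.FE.H250
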