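import Vale.Agent.P016.R2.H250.E
import Vale.Agent.P016.R2.H250.Cls
import Vale.Agent.P016.R2.H250.Char

/-!
# Simultaneous primitive roots, part F: all integers, one exceptional set of bounded rank
-/

open Finset Real Filter

namespace Vale.Agent.P016.FE.H250

/-- a completely multiplicative sign with value `-1` at `-3` -/
def IsSgn (χ : ℤ → ℤ) : Prop := (∀ a, a ≠ 0 → χ a = 1 ∨ χ a = -1) ∧
  (∀ a b, a ≠ 0 → b ≠ 0 → χ (a * b) = χ a * χ b) ∧ χ (-3) = -1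

lemma admG_24 (b : ℕ) (h1 : b < 24) (h2 : Nat.Coprime b 24) (h3 : b % 3 = 2) : AdmG 24 b := by
  refine ⟨h1, h2, ?_⟩
  intro q hq hq3 hqd
  have h4 : q = 3 := by
    have h5 : q ∣ 2 ^ 3 * 3 := by norm_num; exact hqd
    rcases (Nat.Prime.dvd_mul hq).1 h5 with h | h
    · have := Nat.le_of_dvd (by norm_num) (hq.dvd_of_dvd_pow h)
      omega
    · exact (Nat.prime_dvd_prime_iff_eq hq Nat.prime_three).1 h
  subst h4
  omega

lemma not_dvd_24 {l : ℕ} (hl : l.Prime) (h5 : 5 ≤ l) : ¬ l ∣ 24 := by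
  intro h
  have h5' : l ∣ 2 ^ 3 * 3 := by norm_num; exact h
  rcases (Nat.Prime.dvd_mul hl).1 h5' with h | h
  · have := Nat.le_of_dvd (by norm_num) (hl.dvd_of_dvd_pow h)
    omega
  · have := (Nat.prime_dvd_prime_iff_eq hl Nat.prime_three).1 h
    omega

/-- classes for a sign -/
lemma hasCls_of_sgn {χ : ℤ → ℤ} (hχ : IsSgn χ) (F : Finset ℤ) (h0 : (0 : ℤ) ∉ F) (T : Set ℤ)
    (hT : ∀ a ∈ F, (a ∈ T ↔ χ a = -1)) : HasCls 1 0 T F := by
  obtain ⟨h1, h2, h3⟩ := hχ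
  obtain ⟨b, S, T', g1, g2, g3, g4, p₀, g5⟩ := class_of_char F h0 χ h1 h2 h3
  refine ⟨24, b, S, T', by norm_num, by norm_num, admG_24 b g1 g2 g3, fun p _ => Nat.mod_one p,
    fun l hl => ⟨(g4 l hl).1, (g4 l hl).2, not_dvd_24 (g4 l hl).1 (g4 l hl).2⟩, p₀, ?_⟩
  intro p hp hp0 hpb hS a ha
  rw [g5 p hp hp0 hpb hS a ha, hT a ha]
  have ha0 : a ≠ 0 := fun h => h0 (h ▸ ha)
  rcases h1 a ha0 with h | h <;> rw [h] <;> norm_num

open Classical in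
/-- Heath-Brown's condition gives classes -/
lemma hasCls_of_hb (F : Finset ℤ) (h0 : (0 : ℤ) ∉ F) (T : Set ℤ)
    (h : ∀ F' : Finset ℤ, F' ⊆ F → (Odd (F'.filter (fun a => a ∈ T)).card → ¬ IsSquare (∏ a ∈ F', a)) ∧
      (Even (F'.filter (fun a => a ∈ T)).card → ¬ IsSquare (-3 * ∏ a ∈ F', a))) :
    HasCls 1 0 T F := by
  have hfi : ∀ F' : Finset ℤ, F' ⊆ F → F' ∩ (F.filter (fun a => a ∈ T)) =
      F'.filter (fun a => a ∈ T) := by
    intro F' hF'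
    ext a
    rw [mem_inter, mem_filter, mem_filter]
    constructor
    · rintro ⟨g1, g2⟩
      exact ⟨g1, g2.2⟩
    · rintro ⟨g1, g2⟩
      exact ⟨g1, hF' g1, g2⟩
  obtain ⟨χ, h1, h2, h3, h4⟩ := exists_char F (F.filter (fun a => a ∈ T)) h0 (by
    intro F' hF'
    rw [hfi F' hF']
    exact h F' hF')
  refine hasCls_of_sgn ⟨h1, h2, h3⟩ F h0 T ?_
  intro a ha
  rw [h4 a ha, mem_filter]
  exact ⟨fun h => ⟨ha, h⟩, fun h => h.2⟩

/-- the primes counted, all integers -/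
noncomputable def cntG (K : ℕ) (η : ℝ) (χ : ℤ → ℤ) (F : Finset ℤ) (E : Set ℤ) (x : ℕ) :
    Finset ℕ := by
  classical
  exact (range (x + 1)).filter (fun p => p.Prime ∧ PG K ((x : ℝ) ^ η) p ∧ ∀ a ∈ F, a ≠ 0 →
    ¬ (p : ℤ) ∣ a ∧ (IsSquare (a : ZMod p) ↔ χ a = 1) ∧ (a ∈ E ↔ ¬ Ind2 p a))

lemma mem_cntG {K : ℕ} {η : ℝ} {χ : ℤ → ℤ} {F : Finset ℤ} {E : Set ℤ} {x p : ℕ} :
    p ∈ cntG K η χ F E x ↔ p ≤ x ∧ p.Prime ∧ PG K ((x : ℝ) ^ η) p ∧ ∀ a ∈ F, a ≠ 0 →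
    ¬ (p : ℤ) ∣ a ∧ (IsSquare (a : ZMod p) ↔ χ a = 1) ∧ (a ∈ E ↔ ¬ Ind2 p a) := by
  classical
  unfold cntG
  rw [mem_filter, mem_range, Nat.lt_succ_iff]

open Classical in
lemma pigeonG1 (K : ℕ) (c η : ℝ) (hc : 0 < c) (hcore : Core K c η) {χ : ℤ → ℤ}
    (hχ : IsSgn χ) (F : Finset ℤ) :
    ∃ c₁ : ℝ, 0 < c₁ ∧ ∀ᶠ x : ℕ in atTop, ∃ E ∈ F.powerset,
      c₁ * (x / (log x) ^ 2) ≤ ((cntG K η χ F (E : Set ℤ) x).card : ℝ) := by
  obtain ⟨h1, h2, h3⟩ := hχ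
  obtain ⟨b, S, T', g1, g2, g3, g4, p₀, g5⟩ := class_of_char (F.erase 0) (by simp) χ h1 h2 h3
  obtain ⟨x₁, h⟩ := hcore 1 one_pos
  have hφ0 : (0 : ℝ) < Nat.totient 24 := by exact_mod_cast Nat.totient_pos.2 (by norm_num)
  set M : ℝ := ∑ a ∈ F, |(a : ℝ)| with hM
  refine ⟨c / 4 ^ S.card / Nat.totient 24 / 2 ^ F.card, by positivity, ?_⟩
  filter_upwards [eventually_ge_atTop x₁,
    Vale.Agent.P013.J.ev_const_le_log ((24 * ∏ l ∈ S, l : ℕ) : ℝ),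
    Vale.Agent.P013.J.ev_const_le_rpow (10 * M) 1 one_pos,
    Vale.Agent.P013.J.ev_const_le_rpow (10 * p₀) 1 one_pos,
    Vale.Agent.P013.J.ev_const_le_log 1] with x e1 e2 e4 e5 e6
  rw [Real.rpow_one] at e4 e5
  obtain ⟨G, hG, hcount⟩ := h x e1
  have h1' := hcount T' S 24 b (by norm_num) (by norm_num) (admG_24 b g1 g2 g3)
    (fun l hl => ⟨(g4 l hl).1, (g4 l hl).2, not_dvd_24 (g4 l hl).1 (g4 l hl).2⟩)
    (by rw [Real.rpow_one]; exact e2)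
  have hL0 : 0 < log x := by linarith
  by_contra hcon
  push Not at hcon
  have h𝓟c : (F.powerset.card : ℝ) = 2 ^ F.card := by
    rw [Finset.card_powerset]
    push_cast
    rfl
  have hsub : G.filter (fun p => p % 24 = b ∧ ∀ l ∈ S, (IsSquare (l : ZMod p) ↔ l ∉ T')) ⊆
      F.powerset.biUnion (fun E => cntG K η χ F (E : Set ℤ) x) := by
    intro p hp
    rw [mem_filter] at hp
    obtain ⟨hpG, hpb, hpS⟩ := hp
    obtain ⟨i1, i2, i3, i4⟩ := hG p hpG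
    rw [mem_biUnion]
    have hp0 : p₀ ≤ p := by
      have : (p₀ : ℝ) ≤ p := by linarith
      exact_mod_cast this
    have haM : ∀ a ∈ F, |(a : ℝ)| ≤ M := fun a ha =>
      Finset.single_le_sum (f := fun a : ℤ => |(a : ℝ)|) (fun i _ => abs_nonneg _) ha
    refine ⟨F.filter (fun a => ¬ Ind2 p a), ?_, ?_⟩
    · rw [mem_powerset]
      exact Finset.filter_subset _ _
    · rw [mem_cntG]
      refine ⟨i1, i2, i4, ?_⟩
      intro a ha ha0
      refine ⟨?_, g5 p i2 hp0 hpb hpS a (Finset.mem_erase.2 ⟨ha0, ha⟩), ?_⟩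
      · intro hdvd
        have h2 : p ≤ a.natAbs := Nat.le_of_dvd (Int.natAbs_pos.2 ha0) (Int.natCast_dvd.1 hdvd)
        have h3 : (p : ℝ) ≤ |(a : ℝ)| := by
          have h5 : ((a.natAbs : ℕ) : ℝ) = |(a : ℝ)| := by
            rw [Nat.cast_natAbs]
            push_cast
            rfl
          rw [← h5]
          exact_mod_cast h2
        have h4 := haM a ha
        linarith
      · rw [Finset.mem_coe, mem_filter]
        exact ⟨fun h => h.2, fun h => ⟨ha, h⟩⟩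
  have h2' : ((G.filter (fun p => p % 24 = b ∧
      ∀ l ∈ S, (IsSquare (l : ZMod p) ↔ l ∉ T'))).card : ℝ) ≤
      ∑ E ∈ F.powerset, ((cntG K η χ F (E : Set ℤ) x).card : ℝ) := by
    exact_mod_cast (Finset.card_le_card hsub).trans Finset.card_biUnion_le
  have h3' : ∑ E ∈ F.powerset, ((cntG K η χ F (E : Set ℤ) x).card : ℝ) <
      ∑ _E ∈ F.powerset, (c / 4 ^ S.card / Nat.totient 24 / 2 ^ F.card * (x / (log x) ^ 2)) :=
    Finset.sum_lt_sum_of_nonempty ⟨∅, Finset.empty_mem_powerset _⟩ hcon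
  rw [Finset.sum_const, nsmul_eq_mul, h𝓟c] at h3'
  have h6 : (2 : ℝ) ^ F.card * (c / 4 ^ S.card / Nat.totient 24 / 2 ^ F.card * (x / (log x) ^ 2)) =
      c / 4 ^ S.card * (x / (Nat.totient 24 * (log x) ^ 2)) := by
    field_simp
  linarith

/-- frequently many primes, all integers -/
def QG (K : ℕ) (η : ℝ) (χ : ℤ → ℤ) (F : Finset ℤ) (E : Set ℤ) : Prop :=
  ∃ c₁ : ℝ, 0 < c₁ ∧ ∃ᶠ x : ℕ in atTop,
    c₁ * (x / (log x) ^ 2) ≤ ((cntG K η χ F E x).card : ℝ)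

lemma pigeonG2 (K : ℕ) (c η : ℝ) (hc : 0 < c) (hcore : Core K c η) {χ : ℤ → ℤ}
    (hχ : IsSgn χ) (F : Finset ℤ) : ∃ E : Set ℤ, QG K η χ F E := by
  obtain ⟨c₁, hc₁, h⟩ := pigeonG1 K c η hc hcore hχ F
  by_contra hcon
  push Not at hcon
  have h1 : ∀ᶠ x : ℕ in atTop, ∀ E ∈ F.powerset,
      ¬ c₁ * (x / (log x) ^ 2) ≤ ((cntG K η χ F (E : Set ℤ) x).card : ℝ) := by
    rw [Filter.eventually_all_finset]
    intro E hE
    have h2 := hcon (E : Set ℤ)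
    unfold QG at h2
    rw [← Filter.not_frequently]
    intro h3
    exact h2 ⟨c₁, hc₁, h3⟩
  obtain ⟨x, ⟨E, hE1, hE2⟩, h4⟩ := (h.and h1).exists
  exact h4 E hE1 hE2

open Classical in
/-- one exceptional set for all integers, of rank at most `K` -/
theorem all_int (K : ℕ) (c η : ℝ) (hc : 0 < c) (hη : 0 < η) (hcore : Core K c η) {χ : ℤ → ℤ}
    (hχ : IsSgn χ) :
    ∃ B : Set ℤ, (∀ E : Finset ℤ, (E : Set ℤ) ⊆ B → Indep E → E.card ≤ K) ∧
      ∀ F : Finset ℤ, QG K η χ F B := by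
  obtain ⟨B, hB⟩ : ∃ B : Set ℤ, ∀ F : Finset ℤ, QG K η χ F B := by
    apply compactness' (QG K η χ)
    · intro F F' E hFF' hQ
      obtain ⟨c₁, hc₁, h⟩ := hQ
      refine ⟨c₁, hc₁, h.mono fun x hx => hx.trans ?_⟩
      have : cntG K η χ F' E x ⊆ cntG K η χ F E x := by
        intro p hp
        rw [mem_cntG] at hp ⊢
        exact ⟨hp.1, hp.2.1, hp.2.2.1, fun a ha => hp.2.2.2 a (hFF' ha)⟩
      exact_mod_cast Finset.card_le_card this
    · intro F E E' hEE hQ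
      obtain ⟨c₁, hc₁, h⟩ := hQ
      refine ⟨c₁, hc₁, h.mono fun x hx => hx.trans ?_⟩
      have : cntG K η χ F E x ⊆ cntG K η χ F E' x := by
        intro p hp
        rw [mem_cntG] at hp ⊢
        refine ⟨hp.1, hp.2.1, hp.2.2.1, fun a ha ha0 => ?_⟩
        obtain ⟨g1, g2, g3⟩ := hp.2.2.2 a ha ha0
        exact ⟨g1, g2, (hEE a ha).symm.trans g3⟩
      exact_mod_cast Finset.card_le_card this
    · exact fun F => pigeonG2 K c η hc hcore hχ F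
  refine ⟨B, ?_, hB⟩
  intro E hEB hE
  obtain ⟨c₁, hc₁, h⟩ := hB E
  have h2 := Vale.Agent.P013.J.ev_const_le_rpow (∑ a ∈ E, |(a : ℝ)|) η hη
  obtain ⟨x, h3, h4, h5⟩ := (h.and_eventually
    (h2.and (Vale.Agent.P013.J.ev_const_le_log 1))).exists
  have hx0 : (0 : ℝ) < x := by
    rcases Nat.eq_zero_or_pos x with rfl | hx
    · norm_num at h5
    · exact_mod_cast hx
  have hcard : 0 < (cntG K η χ E B x).card := by
    have hL0 : 0 < log (x : ℝ) := by linarith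
    have : (0 : ℝ) < ((cntG K η χ E B x).card : ℝ) := lt_of_lt_of_le (by positivity) h3
    exact_mod_cast this
  obtain ⟨p, hp⟩ := Finset.card_pos.1 hcard
  rw [mem_cntG] at hp
  obtain ⟨-, -, hPG, hp⟩ := hp
  have h6 := hPG E hE (fun a ha => (Finset.single_le_sum (f := fun a : ℤ => |(a : ℝ)|)
    (fun i _ => abs_nonneg _) ha).trans h4)
  have h7 : E.filter (fun a => ¬ Ind2 p a) = E := by
    apply Finset.filter_true_of_mem
    intro a ha
    have ha0 : a ≠ 0 := by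
      rintro rfl
      exact zero_notMem_of_indep hE ha
    exact (hp a ha ha0).2.2.1 (hEB ha)
  rw [h7] at h6
  exact h6

end Vale.Agent.P016.FE.H250
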