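import Vale.Agent.P016.FE.Defs

/-!
# Simultaneous primitive roots: integers of a set of bounded multiplicative rank
-/

open Finset

namespace Vale.Agent.P016.FE.H250

/-- the valuation matrix: rows the elements of `F`, columns the numbers `q ≤ y` -/
noncomputable def valM (F : Finset ℤ) (y : ℕ) : Matrix F (Fin (y + 1)) ℚ :=
  fun a q => ((a : ℤ).natAbs.factorization (q : ℕ) : ℚ)

lemma indep_of_rows {F : Finset ℤ} {y : ℕ} (h0 : ∀ a ∈ F, a ≠ 0)
    {κ : Type} [Fintype κ] [DecidableEq κ] (r : κ → F) (hr : Function.Injective r)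
    (hl : LinearIndependent ℚ ((valM F y).row ∘ r)) :
    Indep (univ.image (fun k => ((r k : F) : ℤ))) := by
  intro u v huv
  have hinj : Function.Injective (fun k => ((r k : F) : ℤ)) := Subtype.val_injective.comp hr
  rw [prod_image (fun a _ b _ h => hinj h), prod_image (fun a _ b _ h => hinj h)] at huv
  have h1 := congrArg (fun t : ℤ => (Int.natAbsHom t).factorization) huv
  simp only [map_prod, map_pow] at h1
  have hne : ∀ (w : ℤ → ℕ), ∀ k ∈ (univ : Finset κ),
      Int.natAbsHom ((r k : F) : ℤ) ^ w ((r k : F) : ℤ) ≠ 0 := by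
    intro w k _
    exact pow_ne_zero _ (Int.natAbs_ne_zero.2 (h0 _ (r k).2))
  rw [Nat.factorization_prod (hne u), Nat.factorization_prod (hne v)] at h1
  simp only [Nat.factorization_pow] at h1
  have h2 : ∑ k, ((u ((r k : F) : ℤ) : ℚ) - v ((r k : F) : ℤ)) • ((valM F y).row ∘ r) k = 0 := by
    funext q
    have h3 := DFunLike.congr_fun h1 (q : ℕ)
    simp only [Finsupp.coe_finsetSum, Finset.sum_apply, Finsupp.coe_smul, Pi.smul_apply,
      smul_eq_mul] at h3
    have h4 : (∑ k, (u ((r k : F) : ℤ) : ℚ) * ((Int.natAbsHom ((r k : F) : ℤ)).factorization q : ℚ))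
        = ∑ k, (v ((r k : F) : ℤ) : ℚ) * ((Int.natAbsHom ((r k : F) : ℤ)).factorization q : ℚ) := by
      exact_mod_cast h3
    simp only [Finset.sum_apply, Pi.smul_apply, smul_eq_mul, Function.comp_apply, Pi.zero_apply]
    have h5 : ∀ k, (valM F y).row (r k) q =
        ((Int.natAbsHom ((r k : F) : ℤ)).factorization q : ℚ) := fun k => rfl
    simp only [h5, sub_mul, Finset.sum_sub_distrib]
    rw [h4, sub_self]
  have h3 := Fintype.linearIndependent_iff.1 hl _ h2
  intro a ha
  obtain ⟨k, _, rfl⟩ := mem_image.1 ha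
  have h4 := h3 k
  rw [sub_eq_zero] at h4
  exact_mod_cast h4

/-- a set of integers without more than `K` independent elements has at most
`2 (log₂ y + 1)^K` nonzero elements of absolute value at most `y` -/
theorem rank_count (K : ℕ) (B : Set ℤ)
    (hB : ∀ E : Finset ℤ, (E : Set ℤ) ⊆ B → Indep E → E.card ≤ K)
    (y : ℕ) (_hy : 1 ≤ y) (F : Finset ℤ) (hF : ∀ a ∈ F, a ≠ 0 ∧ a ∈ B ∧ a.natAbs ≤ y) :
    F.card ≤ 2 * (Nat.log 2 y + 1) ^ K := by
  classical
  obtain ⟨κ, r, hr, hspan, hli⟩ := exists_linearIndependent' ℚ (valM F y).row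
  have : Finite κ := Finite.of_injective r hr
  have := Fintype.ofFinite κ
  have hrank : (valM F y).rank = Fintype.card κ := by
    rw [Matrix.rank_eq_finrank_span_row, ← hspan, finrank_span_eq_card hli]
  have hK : (valM F y).rank ≤ K := by
    rw [hrank]
    have hinj : Function.Injective (fun k => ((r k : F) : ℤ)) := Subtype.val_injective.comp hr
    have h1 := hB (univ.image (fun k => ((r k : F) : ℤ))) (by
      intro a ha
      obtain ⟨k, _, rfl⟩ := mem_image.1 (mem_coe.1 ha)
      exact (hF _ (r k).2).2.1) (indep_of_rows (fun a ha => (hF a ha).1) r hr hli)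
    rwa [card_image_of_injective _ hinj, card_univ] at h1
  obtain ⟨κ', c, hc, hspan', hli'⟩ := exists_linearIndependent' ℚ (valM F y).col
  have : Finite κ' := Finite.of_injective c hc
  have := Fintype.ofFinite κ'
  have hrank' : (valM F y).rank = Fintype.card κ' := by
    rw [Matrix.rank_eq_finrank_span_cols, ← hspan', finrank_span_eq_card hli']
  have hlog : ∀ (a : F) (q : ℕ), (a : ℤ).natAbs.factorization q < Nat.log 2 y + 1 := by
    intro a q
    have ha := hF a a.2
    have ha0 : (a : ℤ).natAbs ≠ 0 := Int.natAbs_ne_zero.2 ha.1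
    refine Nat.lt_succ_of_le ?_
    by_cases hq : q.Prime
    · refine Nat.le_log_of_pow_le (by norm_num) ?_
      calc 2 ^ (a : ℤ).natAbs.factorization q ≤ q ^ (a : ℤ).natAbs.factorization q :=
            Nat.pow_le_pow_left hq.two_le _
        _ ≤ (a : ℤ).natAbs := Nat.le_of_dvd (Nat.pos_of_ne_zero ha0) (Nat.ordProj_dvd _ _)
        _ ≤ y := ha.2.2
    · rw [Nat.factorization_eq_zero_of_not_prime _ hq]
      exact Nat.zero_le _
  let Φ : F → Bool × (κ' → Fin (Nat.log 2 y + 1)) := fun a =>
    (decide (0 < (a : ℤ)), fun k => ⟨(a : ℤ).natAbs.factorization (c k : ℕ), hlog a _⟩)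
  have hΦ : Function.Injective Φ := by
    intro a b hab
    have hab1 : decide (0 < (a : ℤ)) = decide (0 < (b : ℤ)) := congrArg Prod.fst hab
    have hab2 : ∀ k, (a : ℤ).natAbs.factorization (c k : ℕ) =
        (b : ℤ).natAbs.factorization (c k : ℕ) := by
      intro k
      have := congrFun (congrArg Prod.snd hab) k
      exact congrArg Fin.val this
    -- the functional `col ↦ col a - col b` vanishes on all columns
    let φ : (F → ℚ) →ₗ[ℚ] ℚ := (LinearMap.proj (R := ℚ) (φ := fun _ : F => ℚ) a) -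
      (LinearMap.proj (R := ℚ) (φ := fun _ : F => ℚ) b)
    have h1 : Submodule.span ℚ (Set.range (valM F y).col) ≤ LinearMap.ker φ := by
      rw [← hspan', Submodule.span_le]
      rintro _ ⟨k, rfl⟩
      show φ ((valM F y).col (c k)) = 0
      show (valM F y) a (c k) - (valM F y) b (c k) = 0
      show (((a : ℤ).natAbs.factorization (c k : ℕ) : ℕ) : ℚ) -
        (((b : ℤ).natAbs.factorization (c k : ℕ) : ℕ) : ℚ) = 0
      rw [hab2 k, sub_self]
    have h2 : ∀ q : ℕ, (a : ℤ).natAbs.factorization q = (b : ℤ).natAbs.factorization q := by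
      intro q
      by_cases hq : q < y + 1
      · have h3 : φ ((valM F y).col ⟨q, hq⟩) = 0 :=
          h1 (Submodule.subset_span ⟨⟨q, hq⟩, rfl⟩)
        have h4 : (((a : ℤ).natAbs.factorization q : ℕ) : ℚ) -
            (((b : ℤ).natAbs.factorization q : ℕ) : ℚ) = 0 := h3
        exact_mod_cast sub_eq_zero.1 h4
      · have h5 : ∀ d : F, (d : ℤ).natAbs.factorization q = 0 := by
          intro d
          refine Nat.factorization_eq_zero_of_not_dvd fun h => ?_
          have h6 := Nat.le_of_dvd (Nat.pos_of_ne_zero (Int.natAbs_ne_zero.2 (hF d d.2).1)) h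
          have h7 := (hF d d.2).2.2
          omega
        rw [h5 a, h5 b]
    have h3 : (a : ℤ).natAbs = (b : ℤ).natAbs :=
      Nat.eq_of_factorization_eq (Int.natAbs_ne_zero.2 (hF a a.2).1)
        (Int.natAbs_ne_zero.2 (hF b b.2).1) h2
    apply Subtype.ext
    have ha0 := (hF a a.2).1
    have hb0 := (hF b b.2).1
    rw [decide_eq_decide] at hab1
    omega
  calc F.card = Fintype.card F := (Fintype.card_coe F).symm
    _ ≤ Fintype.card (Bool × (κ' → Fin (Nat.log 2 y + 1))) := Fintype.card_le_of_injective Φ hΦ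
    _ = 2 * (Nat.log 2 y + 1) ^ (Fintype.card κ') := by
        rw [Fintype.card_prod, Fintype.card_bool, Fintype.card_fun, Fintype.card_fin]
    _ ≤ 2 * (Nat.log 2 y + 1) ^ K :=
        Nat.mul_le_mul_left _ (Nat.pow_le_pow_right (Nat.succ_pos _) (hrank' ▸ hK))

end Vale.Agent.P016.FE.H250
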