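import Mathlib

namespace Vale.Agent.P016.FE.H250.TupleZ

open Finset

/-- Telescoping over the coordinates of an `r`-tuple; the functions `f i` and the weights `wt i`
depend on the coordinate. -/
theorem tuplesG {A : Finset ℤ} (P : Finset ℕ) (B Δ : ℝ) (r : ℕ) :
    ∀ (f : Fin r → ℕ → ℤ → ℝ) (wt : Fin r → ℕ → ℝ), (∀ i p q, 0 ≤ f i p q ∧ f i p q ≤ 1) →
      (∀ i p, 0 ≤ wt i p ∧ wt i p ≤ 1) →
      (∀ (i : Fin r) (u : ℕ → ℝ), (∀ p, 0 ≤ u p ∧ u p ≤ 1) →
        ((A.filter (fun q => Δ < |∑ p ∈ P, u p * (f i p q - wt i p)|)).card : ℝ) ≤ B) →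
      ∀ u : ℕ → ℝ, (∀ p, 0 ≤ u p ∧ u p ≤ 1) →
        (((Fintype.piFinset (fun _ : Fin r => A)).filter
          (fun q => r * Δ < |∑ p ∈ P, u p * (∏ i, f i p (q i) - ∏ i, wt i p)|)).card : ℝ) ≤
          r * (A.card : ℝ) ^ (r - 1) * B := by
  induction r with
  | zero =>
    intro f wt hf hw h u hu
    simp
  | succ r ih =>
    intro f wt hf hw h u hu
    classical
    set Pi := Fintype.piFinset (fun _ : Fin r => A) with hPi
    have hwp : ∀ p, 0 ≤ ∏ i : Fin r, wt i.succ p ∧ ∏ i : Fin r, wt i.succ p ≤ 1 := fun p =>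
      ⟨prod_nonneg fun i _ => (hw _ p).1,
        prod_le_one (fun i _ => (hw _ p).1) fun i _ => (hw _ p).2⟩
    set b1 : ℤ → (Fin r → ℤ) → Prop := fun a t =>
      r * Δ < |∑ p ∈ P, (u p * f 0 p a) * (∏ i, f (Fin.succ i) p (t i) - ∏ i, wt (Fin.succ i) p)|
      with hb1
    set b2 : ℤ → Prop := fun a =>
      Δ < |∑ p ∈ P, (u p * ∏ i : Fin r, wt i.succ p) * (f 0 p a - wt 0 p)| with hb2
    set bad := (Fintype.piFinset (fun _ : Fin (r + 1) => A)).filter
        (fun q => ((r + 1 : ℕ) : ℝ) * Δ < |∑ p ∈ P, u p * (∏ i, f i p (q i) - ∏ i, wt i p)|)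
      with hbad
    have hcard : bad.card ≤ ((A ×ˢ Pi).filter (fun z => b1 z.1 z.2)).card +
        ((A ×ˢ Pi).filter (fun z => b2 z.1)).card := by
      refine le_trans ?_ (card_union_le _ _)
      refine card_le_card_of_injOn (fun q => (q 0, Fin.tail q)) ?_ ?_
      · intro q hq
        rw [mem_coe, hbad, mem_filter, Fintype.mem_piFinset] at hq
        obtain ⟨hqA, hq⟩ := hq
        have hmem : (q 0, Fin.tail q) ∈ A ×ˢ Pi := by
          rw [mem_product]
          exact ⟨hqA 0, Fintype.mem_piFinset.2 fun i => hqA i.succ⟩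
        rw [mem_coe, mem_union, mem_filter, mem_filter]
        by_contra hcon
        rw [not_or] at hcon
        have c1 : ¬ b1 (q 0) (Fin.tail q) := fun hh => hcon.1 ⟨hmem, hh⟩
        have c2 : ¬ b2 (q 0) := fun hh => hcon.2 ⟨hmem, hh⟩
        rw [hb1] at c1
        rw [hb2] at c2
        simp only [not_lt] at c1 c2
        have hsum : ∑ p ∈ P, u p * (∏ i, f i p (q i) - ∏ i, wt i p) =
            ∑ p ∈ P, (u p * f 0 p (q 0)) *
              (∏ i, f (Fin.succ i) p (Fin.tail q i) - ∏ i, wt (Fin.succ i) p) +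
            ∑ p ∈ P, (u p * ∏ i : Fin r, wt i.succ p) * (f 0 p (q 0) - wt 0 p) := by
          rw [← sum_add_distrib]
          refine sum_congr rfl fun p _ => ?_
          rw [Fin.prod_univ_succ, Fin.prod_univ_succ]
          simp only [Fin.tail]
          ring
        rw [hsum] at hq
        have h3 := abs_add_le (∑ p ∈ P, (u p * f 0 p (q 0)) *
              (∏ i, f (Fin.succ i) p (Fin.tail q i) - ∏ i, wt (Fin.succ i) p))
          (∑ p ∈ P, (u p * ∏ i : Fin r, wt i.succ p) * (f 0 p (q 0) - wt 0 p))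
        push_cast at hq
        linarith
      · intro q _ q' _ hqq
        have e1 : q 0 = q' 0 := congrArg Prod.fst hqq
        have e2 : Fin.tail q = Fin.tail q' := congrArg Prod.snd hqq
        rw [← Fin.cons_self_tail q, ← Fin.cons_self_tail q', e1, e2]
    have hc1 : (((A ×ˢ Pi).filter (fun z => b1 z.1 z.2)).card : ℝ) ≤
        A.card * (r * (A.card : ℝ) ^ (r - 1) * B) := by
      have : ((A ×ˢ Pi).filter (fun z => b1 z.1 z.2)).card =
          ∑ a ∈ A, (Pi.filter (fun t => b1 a t)).card := by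
        rw [card_filter, sum_product]
        exact sum_congr rfl fun a _ => (card_filter _ _).symm
      have hle : (((∑ a ∈ A, (Pi.filter (fun t => b1 a t)).card : ℕ)) : ℝ) ≤
          A.card • (r * (A.card : ℝ) ^ (r - 1) * B) := by
        rw [Nat.cast_sum]
        refine sum_le_card_nsmul _ _ _ fun a _ => ?_
        exact ih (fun i => f i.succ) (fun i => wt i.succ) (fun i => hf _) (fun i => hw _)
          (fun i => h _) (fun p => u p * f 0 p a) fun p =>
          ⟨mul_nonneg (hu p).1 (hf 0 p a).1, mul_le_one₀ (hu p).2 (hf 0 p a).1 (hf 0 p a).2⟩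
      have hn := nsmul_eq_mul A.card ((r : ℝ) * (A.card : ℝ) ^ (r - 1) * B)
      rw [this]
      linarith
    have hc2 : (((A ×ˢ Pi).filter (fun z => b2 z.1)).card : ℝ) ≤ B * (A.card : ℝ) ^ r := by
      have : (A ×ˢ Pi).filter (fun z => b2 z.1) = (A.filter b2) ×ˢ Pi := by
        ext z
        simp only [mem_filter, mem_product]
        tauto
      rw [this, card_product]
      push_cast
      have hPc : (Pi.card : ℝ) = (A.card : ℝ) ^ r := by
        rw [hPi, Fintype.card_piFinset_const]
        push_cast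
        rfl
      rw [hPc]
      refine mul_le_mul_of_nonneg_right ?_ (by positivity)
      exact h 0 (fun p => u p * ∏ i : Fin r, wt i.succ p) fun p =>
        ⟨mul_nonneg (hu p).1 (hwp p).1, mul_le_one₀ (hu p).2 (hwp p).1 (hwp p).2⟩
    have hmul : (A.card : ℝ) * (r * (A.card : ℝ) ^ (r - 1) * B) = r * (A.card : ℝ) ^ r * B := by
      rcases r with _ | r
      · simp
      · simp only [Nat.add_sub_cancel]
        ring
    have h4 : (bad.card : ℝ) ≤ A.card * (r * (A.card : ℝ) ^ (r - 1) * B) + B * (A.card : ℝ) ^ r := by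
      have h5 : (bad.card : ℝ) ≤ (((A ×ˢ Pi).filter (fun z => b1 z.1 z.2)).card : ℝ) +
          (((A ×ˢ Pi).filter (fun z => b2 z.1)).card : ℝ) := by exact_mod_cast hcard
      linarith
    rw [hmul] at h4
    simp only [Nat.add_sub_cancel]
    push_cast
    linarith

/-- The joint law: the `i`-th condition holds for `i ∈ T` and fails for `i ∉ T`. -/
theorem pattern {A : Finset ℤ} (P : Finset ℕ) (B Δ : ℝ) (r : ℕ) (f : Fin r → ℕ → ℤ → ℝ)
    (w : ℕ → ℝ) (hf : ∀ i p q, 0 ≤ f i p q ∧ f i p q ≤ 1) (hw : ∀ p, 0 ≤ w p ∧ w p ≤ 1)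
    (h : ∀ (i : Fin r) (u : ℕ → ℝ), (∀ p, 0 ≤ u p ∧ u p ≤ 1) →
      ((A.filter (fun q => Δ < |∑ p ∈ P, u p * (f i p q - w p)|)).card : ℝ) ≤ B)
    (T : Finset (Fin r)) (u : ℕ → ℝ) (hu : ∀ p, 0 ≤ u p ∧ u p ≤ 1) :
    (((Fintype.piFinset (fun _ : Fin r => A)).filter
      (fun q => r * Δ < |∑ p ∈ P, u p * ((∏ i, if i ∈ T then f i p (q i) else 1 - f i p (q i)) -
        w p ^ T.card * (1 - w p) ^ (r - T.card))|)).card : ℝ) ≤
      r * (A.card : ℝ) ^ (r - 1) * B := by
  classical
  have hprod : ∀ p, (∏ i : Fin r, if i ∈ T then w p else 1 - w p) =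
      w p ^ T.card * (1 - w p) ^ (r - T.card) := by
    intro p
    rw [prod_ite, prod_const, prod_const]
    congr 2
    · congr 1
      ext i
      simp
    · have h1 : (univ.filter fun i : Fin r => i ∉ T) = Tᶜ := by
        ext i
        simp
      rw [h1, card_compl, Fintype.card_fin]
  have key := tuplesG P B Δ r (fun i p q => if i ∈ T then f i p q else 1 - f i p q)
    (fun i p => if i ∈ T then w p else 1 - w p) (fun i p q => by
      have := hf i p q
      show 0 ≤ (if i ∈ T then f i p q else 1 - f i p q) ∧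
        (if i ∈ T then f i p q else 1 - f i p q) ≤ 1
      split_ifs
      · exact this
      · constructor <;> linarith [this.1, this.2])
    (fun i p => by
      have := hw p
      show 0 ≤ (if i ∈ T then w p else 1 - w p) ∧ (if i ∈ T then w p else 1 - w p) ≤ 1
      split_ifs
      · exact this
      · constructor <;> linarith [this.1, this.2])
    (fun i v hv => by
      refine le_trans (le_of_eq ?_) (h i v hv)
      congr 2
      refine filter_congr fun q _ => ?_
      by_cases hi : i ∈ T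
      · simp only [hi, if_true]
      · simp only [hi, if_false]
        have : ∑ p ∈ P, v p * (1 - f i p q - (1 - w p)) = -∑ p ∈ P, v p * (f i p q - w p) := by
          rw [← sum_neg_distrib]
          exact sum_congr rfl fun p _ => by ring
        rw [this, abs_neg])
    u hu
  refine le_trans (le_of_eq ?_) key
  congr 2
  refine filter_congr fun q _ => ?_
  simp only [hprod]

end Vale.Agent.P016.FE.H250.TupleZ
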