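import Vale.Agent.P016.Bdl.B2

/-!
# Weighted form of the theorem for prime bases: an arbitrary weight on the primes `p`
-/

open Finset Filter

namespace Vale.Agent.P016

open Classical in
/-- primitive root indicator for integers -/
noncomputable def fz (p : ℕ) (a : ℤ) : ℝ :=
  if ¬ (p : ℤ) ∣ a ∧ orderOf (a : ZMod p) = p - 1 then 1 else 0

lemma fz_nonneg (p : ℕ) (a : ℤ) : 0 ≤ fz p a := by unfold fz; split_ifs <;> norm_num

lemma fz_le_one (p : ℕ) (a : ℤ) : fz p a ≤ 1 := by unfold fz; split_ifs <;> norm_num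

lemma fz_eq_fp {p : ℕ} {a : ℤ} {n : ℕ} (h : (a : ZMod p) = (n : ZMod p)) : fz p a = fp p n := by
  classical
  have h1 : (p : ℤ) ∣ a ↔ p ∣ n := by
    rw [← ZMod.intCast_zmod_eq_zero_iff_dvd, h, ZMod.natCast_eq_zero_iff]
  unfold fz fp
  rw [h]
  by_cases h2 : p ∣ n
  · rw [if_neg (fun h3 => h3.1 (h1.2 h2)), if_neg (fun h3 => h3.1 h2)]
  · have h3 : ¬ (p : ℤ) ∣ a := fun h4 => h2 (h1.1 h4)
    simp only [h2, h3, not_false_eq_true, true_and]

/-- the weighted discrepancy -/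
noncomputable def disc (u : ℕ → ℝ) (x : ℕ) (a : ℤ) : ℝ := ∑ p ∈ Px x, u p * (fz p a - wt p)

lemma upper_w {u : ℕ → ℝ} (hu : ∀ p, 0 ≤ u p ∧ u p ≤ 1) (z x a : ℕ) (P : Finset ℕ)
    (hP : P ⊆ Px x) :
    ∑ p ∈ Px x, u p * (fp p a - wt p) ≤
      ∑ p ∈ P, u p * gT z p a + ∑ p ∈ P, cL z (p - 1) 0 + ((Px x \ P).card : ℝ) := by
  classical
  rw [← Finset.sum_sdiff hP]
  have h1 : ∑ p ∈ Px x \ P, u p * (fp p a - wt p) ≤ ((Px x \ P).card : ℝ) := by
    calc ∑ p ∈ Px x \ P, u p * (fp p a - wt p) ≤ ∑ p ∈ Px x \ P, (1 : ℝ) := by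
          refine Finset.sum_le_sum fun p _ => ?_
          have h1 := fp_le_one p a
          have h2 := wt_nonneg p
          obtain ⟨h3, h4⟩ := hu p
          calc u p * (fp p a - wt p) ≤ u p * 1 := mul_le_mul_of_nonneg_left (by linarith) h3
            _ ≤ 1 := by linarith
      _ = _ := by simp
  have h2 : ∑ p ∈ P, u p * (fp p a - wt p) ≤ ∑ p ∈ P, u p * gT z p a + ∑ p ∈ P, cL z (p - 1) 0 := by
    rw [← Finset.sum_add_distrib]
    refine Finset.sum_le_sum fun p hp => ?_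
    have hpp := (mem_Px.1 (hP hp)).1
    obtain ⟨b1, b2, b3, b4⟩ := cT_zero_bounds hpp z
    have h3 := fp_le_fT hpp z a
    have h4 := up_le_one p a
    have h5 := up_nonneg p a
    have h6 := wt_nonneg p
    obtain ⟨h7, h8⟩ := hu p
    have h9 : fp p a - wt p ≤ gT z p a + cL z (p - 1) 0 := by
      unfold gT
      nlinarith only [b3, h3, b1, h4, h6]
    calc u p * (fp p a - wt p) ≤ u p * (gT z p a + cL z (p - 1) 0) :=
          mul_le_mul_of_nonneg_left h9 h7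
      _ = u p * gT z p a + u p * cL z (p - 1) 0 := by ring
      _ ≤ u p * gT z p a + cL z (p - 1) 0 := by
          have := mul_le_of_le_one_left b4 h8
          linarith
  linarith

lemma lower_w {u : ℕ → ℝ} (hu : ∀ p, 0 ≤ u p ∧ u p ≤ 1) (z x a b : ℕ) (P : Finset ℕ)
    (hP : P ⊆ Px x) (hab : ∀ p ∈ Px x, p ∣ a → p ∣ b) :
    ∑ p ∈ P, u p * (gT z p a - gL z p a) - ∑ p ∈ P, cL z (p - 1) 0 - ((Px x \ P).card : ℝ) -
      om x b ≤ ∑ p ∈ Px x, u p * (fp p a - wt p) := by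
  classical
  rw [← Finset.sum_sdiff hP]
  have h1 : -((Px x \ P).card : ℝ) ≤ ∑ p ∈ Px x \ P, u p * (fp p a - wt p) := by
    calc -((Px x \ P).card : ℝ) = ∑ p ∈ Px x \ P, (-1 : ℝ) := by
          simp only [sum_neg_distrib, sum_const, nsmul_eq_mul, mul_one]
      _ ≤ _ := by
          refine Finset.sum_le_sum fun p _ => ?_
          have h1 := fp_nonneg p a
          have h2 := wt_le_one p
          obtain ⟨h3, h4⟩ := hu p
          calc (-1 : ℝ) ≤ u p * (-1) := by linarith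
            _ ≤ u p * (fp p a - wt p) := mul_le_mul_of_nonneg_left (by linarith) h3
  have h2 : ∑ p ∈ P, u p * (gT z p a - gL z p a) - ∑ p ∈ P, cL z (p - 1) 0 -
      ∑ p ∈ P, (1 - up p a) ≤ ∑ p ∈ P, u p * (fp p a - wt p) := by
    rw [← Finset.sum_sub_distrib, ← Finset.sum_sub_distrib]
    refine Finset.sum_le_sum fun p hp => ?_
    have hpp := (mem_Px.1 (hP hp)).1
    obtain ⟨b1, b2, b3, b4⟩ := cT_zero_bounds hpp z
    have h3 := fT_le hpp z a
    have h4 := up_le_one p a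
    have h5 := up_nonneg p a
    have h6 := wt_nonneg p
    obtain ⟨h9, h10⟩ := hu p
    have h7 : cL z (p - 1) 0 * up p a ≤ cL z (p - 1) 0 := mul_le_of_le_one_right b4 h4
    have h8 : cT z (p - 1) 0 * (1 - up p a) ≤ 1 - up p a :=
      mul_le_of_le_one_left (by linarith only [h4]) b2
    have h11 : gT z p a - gL z p a - cL z (p - 1) 0 - (1 - up p a) ≤ fp p a - wt p := by
      unfold gT gL
      linarith only [b1, h3, h7, h8]
    have h12 := mul_le_mul_of_nonneg_left h11 h9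
    have h13 := mul_le_of_le_one_left b4 h10
    have h14 : u p * (1 - up p a) ≤ 1 - up p a := mul_le_of_le_one_left (by linarith only [h4]) h10
    have h15 : u p * (gT z p a - gL z p a - cL z (p - 1) 0 - (1 - up p a)) =
      u p * (gT z p a - gL z p a) - u p * cL z (p - 1) 0 - u p * (1 - up p a) := by ring
    linarith only [h12, h13, h14, h15]
  have h3 : ∑ p ∈ P, (1 - up p a) ≤ om x b := by
    calc ∑ p ∈ P, (1 - up p a) ≤ ∑ p ∈ P, (if p ∣ b then (1 : ℝ) else 0) := by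
          refine Finset.sum_le_sum fun p hp => ?_
          unfold up
          by_cases hpa : p ∣ a
          · rw [if_pos hpa, if_pos (hab p (hP hp) hpa)]
            norm_num
          · rw [if_neg hpa]
            split_ifs <;> norm_num
      _ ≤ ∑ p ∈ Px x, (if p ∣ b then (1 : ℝ) else 0) :=
          Finset.sum_le_sum_of_subset_of_nonneg hP fun _ _ _ => by split_ifs <;> norm_num
      _ = om x b := by
          rw [om, ← Finset.sum_filter, Finset.sum_const, nsmul_eq_mul, mul_one]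
  linarith only [h1, h2, h3]

lemma bigTw_eq {x z : ℕ} (u : ℕ → ℝ) {P : Finset ℕ} (hP : P ⊆ Px x) (a : ℕ) :
    ∑ p ∈ P, u p * gT z p a =
      (∑ p ∈ P, ∑ t ∈ Ico 1 (p - 1), ((u p * cT z (p - 1) t : ℝ) : ℂ) * (ech p a) ^ t).re := by
  rw [Complex.re_sum]
  refine Finset.sum_congr rfl fun p hp => ?_
  have h1 : ∑ t ∈ Ico 1 (p - 1), ((u p * cT z (p - 1) t : ℝ) : ℂ) * (ech p a) ^ t =
      ((u p * gT z p a : ℝ) : ℂ) := by
    rw [Complex.ofReal_mul, gT_eq (mem_Px.1 (hP hp)).1, Finset.mul_sum]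
    refine Finset.sum_congr rfl fun t _ => ?_
    push_cast
    ring
  rw [h1, Complex.ofReal_re]

lemma bigTLw_eq {x z : ℕ} (u : ℕ → ℝ) {P : Finset ℕ} (hP : P ⊆ Px x) (a : ℕ) :
    -(∑ p ∈ P, u p * (gT z p a - gL z p a)) = (∑ p ∈ P, ∑ t ∈ Ico 1 (p - 1),
      ((-(u p * (cT z (p - 1) t - cL z (p - 1) t)) : ℝ) : ℂ) * (ech p a) ^ t).re := by
  rw [Complex.re_sum, ← Finset.sum_neg_distrib]
  refine Finset.sum_congr rfl fun p hp => ?_
  have h1 : ∑ t ∈ Ico 1 (p - 1), ((-(u p * (cT z (p - 1) t - cL z (p - 1) t)) : ℝ) : ℂ) *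
      (ech p a) ^ t = ((-(u p * (gT z p a - gL z p a)) : ℝ) : ℂ) := by
    rw [Complex.ofReal_neg, Complex.ofReal_mul, Complex.ofReal_sub, gT_eq (mem_Px.1 (hP hp)).1,
      gL_eq (mem_Px.1 (hP hp)).1, ← Finset.sum_sub_distrib, Finset.mul_sum, ← Finset.sum_neg_distrib]
    refine Finset.sum_congr rfl fun t _ => ?_
    push_cast
    ring
  rw [h1, Complex.ofReal_re]

open Classical in
/-- Count of the bad primes in terms of parameters, with a weight. -/
lemma bad_card_w {u : ℕ → ℝ} (hu : ∀ p, 0 ≤ u p ∧ u p ≤ 1) (x Y z : ℕ) (hx : 3 ≤ x) (hY : 2 ≤ Y)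
    (hL : 1 ≤ Real.log x)
    (P : Finset ℕ) (hP : P ⊆ Px x) (v : ℝ) (hv1 : 1 ≤ v)
    (hPv : ∀ p ∈ P, (2 : ℝ) ^ (Lset z (p - 1)).card + ((Uset z (p - 1)).card : ℝ) ≤ v)
    (hpi : (x : ℝ) / (2 * Real.log x) ≤ #(Px x)) (Δ W : ℝ) (hΔ : 0 < Δ)
    (hW : v * #(Px x) / Δ ≤ W) (m : ℤ) (hm : m ≠ 0)
    (hmω : (m.natAbs.primeFactors.card : ℝ) ≤ Real.sqrt x) (E : ℝ)
    (hPc : ((Px x \ P).card : ℝ) ≤ E) (hPs : ∑ p ∈ Px x, cL z (p - 1) 0 ≤ E)
    (hE1 : 2 * E ≤ Δ / 2) (hE2 : Real.sqrt x + 1 ≤ Δ / 2) :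
    (((Finset.range (Y + 1)).filter (fun q : ℕ => q.Prime ∧
        2 * Δ < |disc u x (m * q)|)).card : ℝ) ≤
      2 * (W ^ 2 * Y * (((Nat.clog Y (x ^ 2) : ℕ) : ℝ) *
      (7 * Real.log x / x) ^ (1 / ((Nat.clog Y (x ^ 2) : ℕ) : ℝ)))) := by
  obtain ⟨n₀, hn₀⟩ := residue_exists x m
  have hcount : ∀ q : ℕ, disc u x (m * q) = ∑ p ∈ Px x, u p * (fp p (n₀ * q) - wt p) := by
    intro q
    unfold disc
    refine Finset.sum_congr rfl fun p hp => ?_
    rw [fz_eq_fp (n := n₀ * q)]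
    push_cast
    rw [hn₀ p hp]
  have hdv : ∀ q : ℕ, ∀ p ∈ Px x, p ∣ n₀ * q → p ∣ m.natAbs * q := by
    intro q p hp hd
    have hpp := (mem_Px.1 hp).1
    rcases (Nat.Prime.dvd_mul hpp).1 hd with h | h
    · refine Dvd.dvd.mul_right ?_ q
      rw [← Int.natCast_dvd]
      rw [← ZMod.intCast_zmod_eq_zero_iff_dvd, hn₀ p hp]
      exact (ZMod.natCast_eq_zero_iff n₀ p).2 h
    · exact Dvd.dvd.mul_left h _
  have hsumcL : ∑ p ∈ P, cL z (p - 1) 0 ≤ E := by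
    refine le_trans ?_ hPs
    exact Finset.sum_le_sum_of_subset_of_nonneg hP
      fun p hp _ => (cT_zero_bounds (mem_Px.1 hp).1 z).2.2.2
  have hsub : (Finset.range (Y + 1)).filter (fun q : ℕ => q.Prime ∧
        2 * Δ < |disc u x (m * q)|) ⊆
      (Finset.range (Y + 1)).filter (fun q : ℕ => q.Prime ∧
        Δ ≤ ∑ p ∈ P, u p * gT z p (n₀ * q)) ∪
      (Finset.range (Y + 1)).filter (fun q : ℕ => q.Prime ∧
        Δ ≤ -(∑ p ∈ P, u p * (gT z p (n₀ * q) - gL z p (n₀ * q)))) := by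
    intro q hq
    rw [mem_filter] at hq
    obtain ⟨hq1, hq2, hq3⟩ := hq
    rw [hcount q] at hq3
    rcases lt_abs.1 hq3 with h1 | h1
    · refine mem_union_left _ ?_
      rw [mem_filter]
      refine ⟨hq1, hq2, ?_⟩
      have h2 := upper_w hu z x (n₀ * q) P hP
      linarith only [hPc, hE1, hsumcL, h1, h2]
    · refine mem_union_right _ ?_
      rw [mem_filter]
      refine ⟨hq1, hq2, ?_⟩
      have h2 := lower_w hu z x (n₀ * q) (m.natAbs * q) P hP (hdv q)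
      have h3 := om_le x m.natAbs q (Int.natAbs_ne_zero.2 hm) hq2
      linarith
  have hQple := side_count x Y n₀ hx hY hL P hP v hv1 (fun p t => u p * cT z (p - 1) t)
    (coef_bound hP hPv _ fun p t => by
      rw [abs_mul, abs_of_nonneg (hu p).1]
      have h1 := mul_le_of_le_one_left (abs_nonneg (cT z (p - 1) t)) (hu p).2
      linarith only [abs_nonneg (cL z (p - 1) t), h1])
    hpi Δ W hΔ hW
    ((Finset.range (Y + 1)).filter (fun q : ℕ => q.Prime ∧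
        Δ ≤ ∑ p ∈ P, u p * gT z p (n₀ * q)))
    (fun q hq => (mem_filter.1 hq).2.1)
    (fun q hq => Nat.lt_succ_iff.1 (mem_range.1 (mem_filter.1 hq).1))
    (fun q hq => by rw [← bigTw_eq u hP]; exact (mem_filter.1 hq).2.2)
  have hQmle := side_count x Y n₀ hx hY hL P hP v hv1
    (fun p t => -(u p * (cT z (p - 1) t - cL z (p - 1) t)))
    (coef_bound hP hPv _ fun p t => by
      rw [abs_neg, abs_mul, abs_of_nonneg (hu p).1]
      have h1 := mul_le_of_le_one_left (abs_nonneg (cT z (p - 1) t - cL z (p - 1) t)) (hu p).2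
      exact h1.trans (abs_sub _ _))
    hpi Δ W hΔ hW
    ((Finset.range (Y + 1)).filter (fun q : ℕ => q.Prime ∧
        Δ ≤ -(∑ p ∈ P, u p * (gT z p (n₀ * q) - gL z p (n₀ * q)))))
    (fun q hq => (mem_filter.1 hq).2.1)
    (fun q hq => Nat.lt_succ_iff.1 (mem_range.1 (mem_filter.1 hq).1))
    (fun q hq => by rw [← bigTLw_eq u hP]; exact (mem_filter.1 hq).2.2)
  have hcard : (((Finset.range (Y + 1)).filter (fun q : ℕ => q.Prime ∧
        2 * Δ < |disc u x (m * q)|)).card : ℝ) ≤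
      (((Finset.range (Y + 1)).filter (fun q : ℕ => q.Prime ∧
        Δ ≤ ∑ p ∈ P, u p * gT z p (n₀ * q))).card : ℝ) +
      (((Finset.range (Y + 1)).filter (fun q : ℕ => q.Prime ∧
        Δ ≤ -(∑ p ∈ P, u p * (gT z p (n₀ * q) - gL z p (n₀ * q))))).card : ℝ) := by
    exact_mod_cast (Finset.card_le_card hsub).trans (Finset.card_union_le _ _)
  refine hcard.trans ((add_le_add hQple hQmle).trans (le_of_eq ?_))
  ring

open Classical in
/-- Theorem P for `κ ≤ 1`. -/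
lemma primeBasesW_aux (κ δ D : ℝ) (hκ : 0 < κ) (hκ1 : κ ≤ 1) (hδ : 0 < δ) (_hD : 0 ≤ D) :
    ∃ x₀ : ℕ, ∀ x : ℕ, x₀ ≤ x → ∀ u : ℕ → ℝ, (∀ p, 0 ≤ u p ∧ u p ≤ 1) → ∀ m : ℤ, m ≠ 0 →
      (m.natAbs.primeFactors.card : ℝ) ≤ Real.sqrt x → ∀ Y : ℕ,
      (((Finset.range (Y + 1)).filter (fun q : ℕ => q.Prime ∧
        δ * artinMain x / (Real.log x) ^ D < |disc u x (m * q)|)).card : ℝ) ≤
      (Y : ℝ) ^ (1 / 2 + κ) * (Real.log x) ^ (1 + 2 * D + κ) + Y * (x : ℝ) ^ (-(κ / 8)) := by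
  obtain ⟨h, hh⟩ := exists_nat_ge (8 / κ)
  have hhpos : 0 < h := by
    rcases Nat.eq_zero_or_pos h with h0 | h0
    · rw [h0, Nat.cast_zero] at hh
      have : 0 < 8 / κ := by positivity
      linarith only [hh, this]
    · exact h0
  have hhr : (0 : ℝ) < h := by exact_mod_cast hhpos
  obtain ⟨A, hA⟩ : ∃ A : ℕ, A = ⌈D⌉₊ + 3 := ⟨_, rfl⟩
  have hAD : D + 3 ≤ A := by
    rw [hA]
    push_cast
    have := Nat.le_ceil D
    linarith only [this]
  obtain ⟨x₁, hx₁⟩ := trunc_final h A (by omega)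
  obtain ⟨x₂, hx₂⟩ := pi_lower
  have hev := ((((eventually_ge_atTop x₁).and (eventually_ge_atTop (max x₂ 3))).and
    (numeric_bound κ hκ hκ1)).and ((ev_log_rpow 1 1 one_pos).and
    (ev_log_rpow (128 / δ) 1 one_pos))).and (((ev_rpow (64 / δ) (2 + D) (1 / 2) (by norm_num)).and
    (ev_log_rpow (512 / δ ^ 2) (κ / 2) (by positivity))).and
    (ev_rpow (512 / δ ^ 2) (1 + 2 * D + κ / 2) (κ / 8) (by positivity)))
  obtain ⟨x₀, hx₀⟩ := Filter.eventually_atTop.1 hev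
  refine ⟨x₀, fun x hx u hu m hm hmω Y => ?_⟩
  obtain ⟨⟨⟨⟨e1, e2⟩, e3⟩, e4, e5⟩, ⟨e6, e7⟩, e8⟩ := hx₀ x hx
  rw [Real.rpow_one] at e4 e5
  have hx3 : 3 ≤ x := le_trans (le_max_right _ _) e2
  have hxx2 : x₂ ≤ x := le_trans (le_max_left _ _) e2
  have hxr : (0 : ℝ) < x := by positivity
  have hL0 : 0 < Real.log x := by linarith only [e4]
  -- trivial case
  rcases lt_or_ge Y 2 with hY2 | hY2
  · have : (Finset.range (Y + 1)).filter (fun q : ℕ => q.Prime ∧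
        δ * artinMain x / (Real.log x) ^ D < |disc u x (m * q)|) = ∅ := by
      refine Finset.filter_eq_empty_iff.2 fun q hq => ?_
      rw [mem_range] at hq
      rintro ⟨h1, _⟩
      have := h1.two_le
      omega
    rw [this, Finset.card_empty, Nat.cast_zero]
    (clear * - e4 hx3; positivity)
  -- parameters
  have hv1 : 1 ≤ (Real.log x) ^ (1 / (h : ℝ)) := Real.one_le_rpow e4 (by positivity)
  have hvh : ((Real.log x) ^ (1 / (h : ℝ))) ^ h = Real.log x := by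
    rw [one_div]
    exact Real.rpow_inv_natCast_pow hL0.le hhpos.ne'
  have hvL : (Real.log x) ^ (1 / (h : ℝ)) ≤ Real.log x := by
    calc (Real.log x) ^ (1 / (h : ℝ)) ≤ ((Real.log x) ^ (1 / (h : ℝ))) ^ h :=
          le_self_pow₀ hv1 hhpos.ne'
      _ = Real.log x := hvh
  obtain ⟨z, P, hP, hPv, hPc, hPs, hpiM⟩ := hx₁ x e1 _ (by linarith only [hv1]) hvh
  have hpi := hx₂ x hxx2
  rw [← Real.sqrt_eq_rpow] at e6
  obtain ⟨hM0, hE1, hE2⟩ := err_small δ D hδ A hAD x hx3 (Real.log x) _ (artinMain x) _ e4 hv1 hvL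
    (artinMain_nonneg x) hpi hpiM e5 e6
  have hLx0 : 0 < (Real.log x) ^ D := Real.rpow_pos_of_pos hL0 D
  have hVW := VW_bound δ ((Real.log x) ^ D) (artinMain x) _ _ hδ hLx0 hM0 hv1 hpiM
  have hb := bad_card_w hu x Y z hx3 hY2 e4 P hP _ hv1 hPv hpi _ _ (by (clear * - hδ hM0 e4; positivity)) hVW m hm hmω _ hPc hPs
    hE1 hE2
  have e9 : 2 * (δ * artinMain x / (2 * (Real.log x) ^ D)) = δ * artinMain x / (Real.log x) ^ D := by
    (clear * - e4 hM0 hδ; field_simp)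
  rw [e9] at hb
  exact hb.trans (final_num κ δ D hκ hδ h hhpos hh x Y hx3 hY2 _ _ e4 (by (clear * - e4 hx3; positivity)) (e3 Y hY2) e7 e8)

open Classical in
/-- **Theorem P.** -/
theorem primeBasesW (κ δ D : ℝ) (hκ : 0 < κ) (hδ : 0 < δ) (hD : 0 ≤ D) :
    ∃ c : ℝ, 0 < c ∧ ∃ x₀ : ℕ, ∀ x : ℕ, x₀ ≤ x → ∀ u : ℕ → ℝ, (∀ p, 0 ≤ u p ∧ u p ≤ 1) → ∀ m : ℤ, m ≠ 0 →
      (m.natAbs.primeFactors.card : ℝ) ≤ Real.sqrt x → ∀ Y : ℕ,
      (((Finset.range (Y + 1)).filter (fun q : ℕ => q.Prime ∧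
        δ * artinMain x / (Real.log x) ^ D < |disc u x (m * q)|)).card : ℝ) ≤
      (Y : ℝ) ^ (1 / 2 + κ) * (Real.log x) ^ (1 + 2 * D + κ) + Y * (x : ℝ) ^ (-c) := by
  have hmin : 0 < min κ 1 := lt_min hκ one_pos
  obtain ⟨x₁, hx₁⟩ := primeBasesW_aux (min κ 1) δ D hmin (min_le_right _ _) hδ hD
  obtain ⟨x₂, hx₂⟩ := Filter.eventually_atTop.1 (ev_log_rpow 1 1 one_pos)
  refine ⟨min κ 1 / 8, by positivity, max x₁ (max x₂ 1), fun x hx u hu m hm hmω Y => ?_⟩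
  have h1 := hx₁ x ((le_max_left _ _).trans hx) u hu m hm hmω Y
  have hL := hx₂ x (((le_max_left _ _).trans (le_max_right _ _)).trans hx)
  rw [Real.rpow_one] at hL
  refine h1.trans ?_
  refine add_le_add ?_ le_rfl
  rcases Nat.eq_zero_or_pos Y with h0 | h0
  · rw [h0, Nat.cast_zero, Real.zero_rpow (by linarith only [hmin]), zero_mul]
    have := Real.rpow_nonneg (le_refl (0 : ℝ)) (1 / 2 + κ)
    (clear * - hL; positivity)
  · have hYr : (1 : ℝ) ≤ Y := by exact_mod_cast h0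
    refine mul_le_mul (Real.rpow_le_rpow_of_exponent_le hYr ?_)
      (Real.rpow_le_rpow_of_exponent_le hL ?_) (by positivity) (by positivity)
    · linarith only [min_le_left κ 1]
    · linarith only [min_le_left κ 1]

end Vale.Agent.P016
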