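import Vale.Agent.P016.R2.H250.W1

/-!
# Weighted form of the theorem for almost all integers `|a| ≤ y ≤ x ^ 3`
-/

set_option linter.all false

namespace Vale.Agent.P016

open Finset Filter

open Classical in
lemma bad_subset_gw {ρ : ℕ → ℝ} (hρ : ∀ p, 0 ≤ ρ p ∧ ρ p ≤ 1) (x z : ℕ) (P : Finset ℕ) (hP : P ⊆ Px x) (m : ℤ) (T : Finset ℕ)
    (hT : ∀ b ∈ T, (om x (m.natAbs * b) : ℝ) ≤ Real.sqrt x + 1) (n₀ : ℕ)
    (hn₀ : ∀ p ∈ Px x, ((m : ℤ) : ZMod p) = (n₀ : ZMod p)) (Δ E : ℝ)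
    (hPc : ((Px x \ P).card : ℝ) ≤ E) (hPs : ∑ p ∈ Px x, cL z (p - 1) 0 ≤ E)
    (hE1 : 2 * E ≤ Δ / 2) (hE2 : Real.sqrt x + 1 ≤ Δ / 2) :
    T.filter (fun q : ℕ => 2 * Δ < |disc ρ x (m * q)|) ⊆
      T.filter (fun q : ℕ => Δ ≤ ∑ p ∈ P, ρ p * gT z p (n₀ * q)) ∪
      T.filter (fun q : ℕ => Δ ≤ -(∑ p ∈ P, ρ p * (gT z p (n₀ * q) - gL z p (n₀ * q)))) := by
  have hcount : ∀ q : ℕ, disc ρ x (m * q) = ∑ p ∈ Px x, ρ p * (fp p (n₀ * q) - wt p) := by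
    intro q
    unfold disc
    refine Finset.sum_congr rfl fun p hp => ?_
    rw [fz_eq_fp (n := n₀ * q)]
    push_cast
    rw [hn₀ p hp]
  have hdv : ∀ q : ℕ, ∀ p ∈ Px x, p ∣ n₀ * q → p ∣ m.natAbs * q := by
    intro q p hp hd
    have hpp := (mem_Px.1 hp).1
    rcases (Nat.Prime.dvd_mul hpp).1 hd with h | h
    · refine Dvd.dvd.mul_right ?_ q
      rw [← Int.natCast_dvd]
      rw [← ZMod.intCast_zmod_eq_zero_iff_dvd, hn₀ p hp]
      exact (ZMod.natCast_eq_zero_iff n₀ p).2 h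
    · exact Dvd.dvd.mul_left h _
  have hsumcL : ∑ p ∈ P, cL z (p - 1) 0 ≤ E := by
    refine le_trans ?_ hPs
    exact Finset.sum_le_sum_of_subset_of_nonneg hP
      fun p hp _ => (cT_zero_bounds (mem_Px.1 hp).1 z).2.2.2
  intro q hq
  rw [mem_filter] at hq
  obtain ⟨hq1, hq3⟩ := hq
  rw [hcount q] at hq3
  rcases lt_abs.1 hq3 with h1 | h1
  · refine mem_union_left _ ?_
    rw [mem_filter]
    refine ⟨hq1, ?_⟩
    have h2 := upper_w hρ z x (n₀ * q) P hP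
    linarith only [hPc, hE1, hsumcL, h1, h2]
  · refine mem_union_right _ ?_
    rw [mem_filter]
    refine ⟨hq1, ?_⟩
    have h2 := lower_w hρ z x (n₀ * q) (m.natAbs * q) P hP (hdv q)
    have h3 := hT q hq1
    linarith only [hPc, hE1, hE2, hsumcL, h1, h2, h3]

open Classical in
/-- Count of the bad rough elements in terms of parameters. -/
lemma bad_card_gw {ρ : ℕ → ℝ} (hρ : ∀ p, 0 ≤ ρ p ∧ ρ p ≤ 1) (x Y z z₁ : ℕ) (hx : 3 ≤ x) (hY : 2 ≤ Y) (hz₁ : 2 ≤ z₁) (hL : 1 ≤ Real.log x)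
    (P : Finset ℕ) (hP : P ⊆ Px x) (v : ℝ) (hv1 : 1 ≤ v)
    (hPv : ∀ p ∈ P, (2 : ℝ) ^ (Lset z (p - 1)).card + ((Uset z (p - 1)).card : ℝ) ≤ v)
    (hpi : (x : ℝ) / (2 * Real.log x) ≤ #(Px x)) (Δ W : ℝ) (hΔ : 0 < Δ)
    (hW : v * #(Px x) / Δ ≤ W) (m : ℤ) (T : Finset ℕ)
    (hTr : ∀ q ∈ T, 1 ≤ q ∧ q ≤ Y ∧ ∀ p : ℕ, p.Prime → p ∣ q → z₁ ≤ p)
    (hT : ∀ b ∈ T, (om x (m.natAbs * b) : ℝ) ≤ Real.sqrt x + 1) (E : ℝ)
    (hPc : ((Px x \ P).card : ℝ) ≤ E) (hPs : ∑ p ∈ Px x, cL z (p - 1) 0 ≤ E)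
    (hE1 : 2 * E ≤ Δ / 2) (hE2 : Real.sqrt x + 1 ≤ Δ / 2) :
    ((T.filter (fun q : ℕ => 2 * Δ < |disc ρ x (m * q)|)).card : ℝ) ≤
      2 * (W ^ 2 * (((Nat.clog Y (x ^ 2) : ℕ) : ℝ) ^ (Real.log Y / Real.log z₁)) * Y *
      (7 * Real.log x / x) ^ (1 / ((Nat.clog Y (x ^ 2) : ℕ) : ℝ))) := by
  obtain ⟨n₀, hn₀⟩ := residue_exists x m
  have hsub := bad_subset_gw hρ x z P hP m T hT n₀ hn₀ Δ E hPc hPs hE1 hE2
  have hQple := side_count_gen x Y n₀ z₁ hx hY hz₁ hL P hP v hv1 (fun p t => ρ p * cT z (p - 1) t)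
    (coef_bound hP hPv _ fun p t => by
      rw [abs_mul, abs_of_nonneg (hρ p).1]
      have h1 := mul_le_of_le_one_left (abs_nonneg (cT z (p - 1) t)) (hρ p).2
      linarith only [abs_nonneg (cL z (p - 1) t), h1])
    hpi Δ W hΔ hW
    (T.filter (fun q : ℕ => Δ ≤ ∑ p ∈ P, ρ p * gT z p (n₀ * q)))
    (fun q hq => hTr q (mem_filter.1 hq).1)
    (fun q hq => by rw [← bigTw_eq ρ hP]; exact (mem_filter.1 hq).2)
  have hQmle := side_count_gen x Y n₀ z₁ hx hY hz₁ hL P hP v hv1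
    (fun p t => -(ρ p * (cT z (p - 1) t - cL z (p - 1) t)))
    (coef_bound hP hPv _ fun p t => by
      rw [abs_neg, abs_mul, abs_of_nonneg (hρ p).1]
      have h1 := mul_le_of_le_one_left (abs_nonneg (cT z (p - 1) t - cL z (p - 1) t)) (hρ p).2
      exact h1.trans (abs_sub _ _))
    hpi Δ W hΔ hW
    (T.filter (fun q : ℕ => Δ ≤ -(∑ p ∈ P, ρ p * (gT z p (n₀ * q) - gL z p (n₀ * q)))))
    (fun q hq => hTr q (mem_filter.1 hq).1)
    (fun q hq => by rw [← bigTLw_eq ρ hP]; exact (mem_filter.1 hq).2)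
  have hcard : ((T.filter (fun q : ℕ =>
        2 * Δ < |disc ρ x (m * q)|)).card : ℝ) ≤
      ((T.filter (fun q : ℕ => Δ ≤ ∑ p ∈ P, ρ p * gT z p (n₀ * q))).card : ℝ) +
      ((T.filter (fun q : ℕ =>
        Δ ≤ -(∑ p ∈ P, ρ p * (gT z p (n₀ * q) - gL z p (n₀ * q))))).card : ℝ) := by
    exact_mod_cast (Finset.card_le_card hsub).trans (Finset.card_union_le _ _)
  refine hcard.trans ((add_le_add hQple hQmle).trans (le_of_eq ?_))
  ring

open Classical in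
/-- **Bad rough integers.** -/
theorem roughBadW (δ D : ℝ) (hδ : 0 < δ) (hD : 0 ≤ D) :
    ∃ x₀ : ℕ, ∀ x : ℕ, x₀ ≤ x → ∀ ρ : ℕ → ℝ, (∀ p, 0 ≤ ρ p ∧ ρ p ≤ 1) → ∀ z : ℕ, (Real.log x) ^ (256 : ℝ) ≤ z → ∀ m : ℤ, ∀ Y : ℕ,
      m.natAbs * Y ≤ x ^ 3 → m ≠ 0 →
      (((Icc 1 Y).filter (fun b : ℕ => (∀ p : ℕ, p.Prime → p ∣ b → z ≤ p) ∧
        δ * artinMain x / (Real.log x) ^ D <
          |disc ρ x (m * b)|)).card : ℝ) ≤
      (Real.log x) ^ (2 * D + 1) * (Y : ℝ) ^ (3 / 4 : ℝ) + Y * (x : ℝ) ^ (-(1 / 64 : ℝ)) := by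
  obtain ⟨A, hA⟩ : ∃ A : ℕ, A = ⌈D⌉₊ + 3 := ⟨_, rfl⟩
  have hAD : D + 3 ≤ A := by
    rw [hA]
    push_cast
    have := Nat.le_ceil D
    linarith only [this]
  obtain ⟨x₁, hx₁⟩ := trunc_final 8 A (by omega)
  obtain ⟨x₂, hx₂⟩ := pi_lower
  have hev := ((((eventually_ge_atTop x₁).and (eventually_ge_atTop (max x₂ 3))).and
    (numeric_bound2 (1 / 4) (by norm_num) (by norm_num))).and ((ev_log_rpow 4 1 one_pos).and
    (ev_log_rpow (128 / δ) 1 one_pos))).and (((ev_rpow (64 / δ) (2 + D) (1 / 2) (by norm_num)).and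
    (ev_log_rpow (128 / δ ^ 2) (1 / 2) (by norm_num))).and
    ((ev_rpow (128 / δ ^ 2) (2 * D + 1 / 2) (1 / 64) (by norm_num)).and
    (ev_rpow 5 1 (1 / 2) (by norm_num))))
  obtain ⟨x₀, hx₀⟩ := Filter.eventually_atTop.1 hev
  refine ⟨x₀, fun x hx ρ hρ z hz m Y hmY hm => ?_⟩
  have hYx : Y ≤ x ^ 3 := le_trans (Nat.le_mul_of_pos_left Y (Int.natAbs_pos.2 hm)) hmY
  obtain ⟨⟨⟨⟨e1, e2⟩, e3⟩, e4, e5⟩, ⟨e6, e7⟩, e8, e9⟩ := hx₀ x hx
  rw [Real.rpow_one] at e4 e5 e9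
  have hx3 : 3 ≤ x := le_trans (le_max_right _ _) e2
  have hxx2 : x₂ ≤ x := le_trans (le_max_left _ _) e2
  have hxr : (0 : ℝ) < x := by positivity
  have hL1 : 1 ≤ Real.log x := by linarith only [e4]
  have hL0 : 0 < Real.log x := by linarith only [e4]
  have hz2 : 2 ≤ z := by
    have h1 : (4 : ℝ) ≤ z := by
      refine le_trans e4 (le_trans ?_ hz)
      calc Real.log x = (Real.log x) ^ (1 : ℝ) := (Real.rpow_one _).symm
        _ ≤ _ := Real.rpow_le_rpow_of_exponent_le hL1 (by norm_num)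
    have : 4 ≤ z := by exact_mod_cast h1
    omega
  -- trivial case
  rcases lt_or_ge Y 2 with hY2 | hY2
  · have h1 : (((Icc 1 Y).filter (fun b : ℕ => (∀ p : ℕ, p.Prime → p ∣ b → z ≤ p) ∧
        δ * artinMain x / (Real.log x) ^ D <
          |disc ρ x (m * b)|)).card : ℝ) ≤ Y := by
      have := Finset.card_filter_le (Icc 1 Y) (fun b : ℕ => (∀ p : ℕ, p.Prime → p ∣ b → z ≤ p) ∧
        δ * artinMain x / (Real.log x) ^ D < |disc ρ x (m * b)|)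
      rw [Nat.card_Icc] at this
      exact_mod_cast this.trans (by omega)
    rcases Nat.eq_zero_or_pos Y with h0 | h0
    · rw [h0] at h1 ⊢
      rw [Nat.cast_zero] at h1 ⊢
      rw [Real.zero_rpow (by norm_num), mul_zero, zero_mul, zero_add]
      exact h1
    · have hY1 : Y = 1 := by omega
      rw [hY1] at h1 ⊢
      rw [Nat.cast_one] at h1 ⊢
      rw [Real.one_rpow, mul_one]
      have h3 : 1 ≤ (Real.log x) ^ (2 * D + 1) := Real.one_le_rpow hL1 (by linarith only [hD])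
      have h4 : 0 ≤ (x : ℝ) ^ (-(1 / 64 : ℝ)) := by positivity
      linarith only [h1, h3, h4]
  -- parameters
  have hv1 : 1 ≤ (Real.log x) ^ (1 / ((8 : ℕ) : ℝ)) := Real.one_le_rpow hL1 (by positivity)
  have hvh : ((Real.log x) ^ (1 / ((8 : ℕ) : ℝ))) ^ 8 = Real.log x := by
    rw [one_div]
    exact Real.rpow_inv_natCast_pow hL0.le (by norm_num)
  have hvL : (Real.log x) ^ (1 / ((8 : ℕ) : ℝ)) ≤ Real.log x := by
    calc (Real.log x) ^ (1 / ((8 : ℕ) : ℝ)) ≤ ((Real.log x) ^ (1 / ((8 : ℕ) : ℝ))) ^ 8 :=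
          le_self_pow₀ hv1 (by norm_num)
      _ = Real.log x := hvh
  obtain ⟨z', P, hP, hPv, hPc, hPs, hpiM⟩ := hx₁ x e1 _ (by linarith only [hv1]) hvh
  have hpi := hx₂ x hxx2
  rw [← Real.sqrt_eq_rpow] at e6 e9
  obtain ⟨hM0, hE1, hE2⟩ := err_small δ D hδ A hAD x hx3 (Real.log x) _ (artinMain x) _ hL1 hv1 hvL
    (artinMain_nonneg x) hpi hpiM e5 e6
  have hLx0 : 0 < (Real.log x) ^ D := Real.rpow_pos_of_pos hL0 D
  have hVW := VW_bound δ ((Real.log x) ^ D) (artinMain x) _ _ hδ hLx0 hM0 hv1 hpiM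
  have hb := bad_card_gw hρ x Y z' z hx3 hY2 hz2 hL1 P hP _ hv1 hPv hpi _ _ (by (clear * - hδ hM0 e4; positivity)) hVW m
    ((Icc 1 Y).filter (fun b : ℕ => ∀ p : ℕ, p.Prime → p ∣ b → z ≤ p))
    (fun q hq => by
      rw [mem_filter, mem_Icc] at hq
      exact ⟨hq.1.1, hq.1.2, hq.2⟩)
    (fun b hb => by
      rw [mem_filter, mem_Icc] at hb
      have h1 : m.natAbs * b ≠ 0 := by
        have := Int.natAbs_pos.2 hm
        have := hb.1.1
        (clear * - hm this; positivity)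
      have h2 : m.natAbs * b ≤ x ^ 3 := le_trans (Nat.mul_le_mul_left _ hb.1.2) hmY
      have h3 := om_le_log x _ h1 h2
      linarith only [e9, h3]) _ hPc hPs
    hE1 hE2
  have e10 : 2 * (δ * artinMain x / (2 * (Real.log x) ^ D)) = δ * artinMain x / (Real.log x) ^ D := by
    (clear * - e4 hM0 hδ; field_simp)
  rw [e10, Finset.filter_filter] at hb
  refine hb.trans ?_
  obtain ⟨hk4, hnum⟩ := e3 Y hY2
  exact final_num_gen δ D x Y z hx3 hY2 hYx _ _ e4 (by positivity) _ (by (clear * -; positivity)) hk4 hz hnum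
    e7 e8 hδ

open Classical in
noncomputable def RBw (ρ : ℕ → ℝ) (δ D : ℝ) (x z : ℕ) (m : ℤ) (Y : ℕ) : Finset ℕ :=
  (Icc 1 Y).filter (fun b : ℕ => (∀ p : ℕ, p.Prime → p ∣ b → z ≤ p) ∧
        δ * artinMain x / (Real.log x) ^ D < |disc ρ x (m * b)|)

open Classical in
/-- bad integers -/
noncomputable def BEw (ρ : ℕ → ℝ) (δ D : ℝ) (x y : ℕ) : Finset ℤ :=
  (Finset.Icc (-(y : ℤ)) (y : ℤ)).filter (fun a : ℤ =>
    δ * artinMain x / (Real.log x) ^ D < |disc ρ x a|)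

lemma cover_card_w (ρ : ℕ → ℝ) (δ D : ℝ) (x z y : ℕ) (hz : 2 ≤ z) :
    (BEw ρ δ D x y).card ≤ 1 + (2 * (Sm z y).card +
      ∑ m ∈ (Sm z y).filter (fun m => z ≤ y / m),
        ((RBw ρ δ D x z (m : ℤ) (y / m)).card + (RBw ρ δ D x z (-(m : ℤ)) (y / m)).card)) := by
  classical
  have hsub : BEw ρ δ D x y ⊆ {0} ∪ (((Sm z y).image (fun n : ℕ => (n : ℤ)) ∪
      (Sm z y).image (fun n : ℕ => -(n : ℤ))) ∪
      ((Sm z y).filter (fun m => z ≤ y / m)).biUnion (fun m =>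
        (RBw ρ δ D x z (m : ℤ) (y / m)).image (fun b : ℕ => (m : ℤ) * b) ∪
        (RBw ρ δ D x z (-(m : ℤ)) (y / m)).image (fun b : ℕ => (-(m : ℤ)) * b))) := by
    intro a ha
    rw [BEw, mem_filter, mem_Icc] at ha
    obtain ⟨⟨ha1, ha2⟩, hbad⟩ := ha
    rcases eq_or_ne a 0 with h0 | h0
    · rw [mem_union]; left; rw [mem_singleton]; exact h0
    rw [mem_union]; right
    obtain ⟨m, b, hmb, hm, hb⟩ := exists_split z a.natAbs (Int.natAbs_ne_zero.2 h0)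
    have hay : a.natAbs ≤ y := by omega
    have hm0 : 0 < m := Nat.pos_of_ne_zero fun h => by
      rw [h, zero_mul] at hmb; omega
    have hb0 : 0 < b := Nat.pos_of_ne_zero fun h => by
      rw [h, mul_zero] at hmb; omega
    have hmy : m ≤ y := by
      have : m ≤ m * b := Nat.le_mul_of_pos_right m hb0
      omega
    have hmS : m ∈ Sm z y := mem_Sm.2 ⟨⟨hm0, hmy⟩, hm⟩
    rcases eq_or_ne b 1 with hb1 | hb1
    · rw [mem_union]; left
      rw [hb1, mul_one] at hmb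
      rw [mem_union]
      rcases Int.natAbs_eq a with h | h
      · left; rw [mem_image]; exact ⟨m, hmS, by rw [← hmb]; exact h.symm⟩
      · right; rw [mem_image]; exact ⟨m, hmS, by rw [← hmb]; exact h.symm⟩
    · rw [mem_union]; right
      have hby : b ≤ y / m := by
        rw [Nat.le_div_iff_mul_le hm0, mul_comm]
        omega
      have hzb : z ≤ b := by
        obtain ⟨p, hp, hpb⟩ := Nat.exists_prime_and_dvd hb1
        exact (hb p hp hpb).trans (Nat.le_of_dvd hb0 hpb)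
      rw [mem_biUnion]
      refine ⟨m, mem_filter.2 ⟨hmS, hzb.trans hby⟩, ?_⟩
      rw [mem_union]
      rcases Int.natAbs_eq a with h | h
      · left
        rw [mem_image]
        refine ⟨b, ?_, ?_⟩
        · rw [RBw, mem_filter, mem_Icc]
          refine ⟨⟨hb0, hby⟩, hb, ?_⟩
          rw [show (m : ℤ) * (b : ℤ) = a by rw [h, hmb]; push_cast; rfl]
          exact hbad
        · rw [h, hmb]; push_cast; rfl
      · right
        rw [mem_image]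
        refine ⟨b, ?_, ?_⟩
        · rw [RBw, mem_filter, mem_Icc]
          refine ⟨⟨hb0, hby⟩, hb, ?_⟩
          rw [show (-(m : ℤ)) * (b : ℤ) = a by rw [h, hmb]; push_cast; ring]
          exact hbad
        · rw [h, hmb]; push_cast; ring
  have _hz := hz
  refine (Finset.card_le_card hsub).trans ((Finset.card_union_le _ _).trans ?_)
  rw [Finset.card_singleton]
  refine Nat.add_le_add_left ?_ 1
  refine (Finset.card_union_le _ _).trans ?_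
  refine Nat.add_le_add ?_ ?_
  · refine (Finset.card_union_le _ _).trans ?_
    have h1 : ((Sm z y).image (fun n : ℕ => (n : ℤ))).card ≤ (Sm z y).card := Finset.card_image_le
    have h2 : ((Sm z y).image (fun n : ℕ => -(n : ℤ))).card ≤ (Sm z y).card := Finset.card_image_le
    omega
  · refine Finset.card_biUnion_le.trans (Finset.sum_le_sum fun m _ => ?_)
    refine (Finset.card_union_le _ _).trans ?_
    exact Nat.add_le_add Finset.card_image_le Finset.card_image_le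

/-- Main inequality. -/
lemma BEw_bound (δ D : ℝ) (hδ : 0 < δ) (hD : 0 ≤ D) :
    ∃ C : ℝ, 1 ≤ C ∧ ∃ x₀ : ℕ, ∀ x : ℕ, x₀ ≤ x → ∀ ρ : ℕ → ℝ, (∀ p, 0 ≤ ρ p ∧ ρ p ≤ 1) → ∀ z : ℕ, (Real.log x) ^ (256 : ℝ) ≤ z →
      ∀ y : ℕ, 2 ≤ y → y ≤ x ^ 3 → Real.log y ≤ Real.sqrt z → ∀ η : ℝ, 0 ≤ η → η ≤ 1 / 4 →
      ((BEw ρ δ D x y).card : ℝ) ≤ 1 + (2 * (Real.sqrt y + C * y * (Real.log z / Real.log y) *
        (z : ℝ) ^ η * (y : ℝ) ^ (-η) * Real.exp (3 * (z : ℝ) ^ η)) +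
        2 * ((Real.log x) ^ (2 * D + 1) * (4 * (y : ℝ) ^ (7 / 8 : ℝ) + y * (z : ℝ) ^ (-(1 / 4 : ℝ)) *
        ((y : ℝ) ^ (-(η / 2)) * (C * Real.log z * Real.exp (3 * (z : ℝ) ^ η)))) +
        y * (1 + Real.log y) * (x : ℝ) ^ (-(1 / 64 : ℝ)))) := by
  classical
  obtain ⟨x₁, hx₁⟩ := roughBadW δ D hδ hD
  obtain ⟨C₁, hC₁, hPsi⟩ := Psi_bound
  obtain ⟨C₂, hC₂, hTail⟩ := tail_bound
  obtain ⟨x₂, hx₂⟩ := ev_log_ge 3
  refine ⟨max C₁ C₂, le_trans hC₁ (le_max_left _ _), max x₁ (max x₂ 1), fun x hx ρ hρ z hz y hy hyx hyz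
    η h0 h1 => ?_⟩
  have hxx1 : x₁ ≤ x := (le_max_left _ _).trans hx
  have hxx2 : x₂ ≤ x := (le_max_left _ _).trans ((le_max_right _ _).trans hx)
  have hx1 : 1 ≤ x := (le_max_right _ _).trans ((le_max_right _ _).trans hx)
  have hL3 := hx₂ x hxx2
  have hL0 : 0 < Real.log x := by linarith only [hL3]
  have hxr : (0 : ℝ) < x := by positivity
  have hyr : (0 : ℝ) < y := by positivity
  have hz3 : 3 ≤ z := by
    have h2 : (3 : ℝ) ≤ z := by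
      refine le_trans hL3 (le_trans ?_ hz)
      calc Real.log x = (Real.log x) ^ (1 : ℝ) := (Real.rpow_one _).symm
        _ ≤ _ := Real.rpow_le_rpow_of_exponent_le (by linarith only [hL3]) (by norm_num)
    exact_mod_cast h2
  have hzr : (3 : ℝ) ≤ z := by exact_mod_cast hz3
  have hlogz : 0 < Real.log z := Real.log_pos (by linarith only [hzr])
  have hlogy : 0 < Real.log y := Real.log_pos (by exact_mod_cast (by omega : 1 < y))
  have hcov := cover_card_w ρ δ D x z y (by omega)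
  have hcov' : ((BEw ρ δ D x y).card : ℝ) ≤ 1 + (2 * ((Sm z y).card : ℝ) +
      ∑ m ∈ (Sm z y).filter (fun m => z ≤ y / m),
        (((RBw ρ δ D x z (m : ℤ) (y / m)).card : ℝ) + (RBw ρ δ D x z (-(m : ℤ)) (y / m)).card)) := by
    exact_mod_cast hcov
  have hRB : ∀ m ∈ (Sm z y).filter (fun m => z ≤ y / m), ∀ m' : ℤ, m'.natAbs = m →
      ((RBw ρ δ D x z m' (y / m)).card : ℝ) ≤ (Real.log x) ^ (2 * D + 1) *
        ((y / m : ℕ) : ℝ) ^ (3 / 4 : ℝ) + ((y / m : ℕ) : ℝ) * (x : ℝ) ^ (-(1 / 64 : ℝ)) := by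
    intro m hm m' hm'
    rw [mem_filter, mem_Sm] at hm
    refine hx₁ x hxx1 ρ hρ z hz m' (y / m) ?_ ?_
    · rw [hm']
      exact (Nat.mul_div_le y m).trans hyx
    · rw [← Int.natAbs_ne_zero, hm']
      omega
  have hsum : ∑ m ∈ (Sm z y).filter (fun m => z ≤ y / m),
        (((RBw ρ δ D x z (m : ℤ) (y / m)).card : ℝ) + (RBw ρ δ D x z (-(m : ℤ)) (y / m)).card) ≤
      2 * ((Real.log x) ^ (2 * D + 1) *
        (∑ m ∈ (Sm z y).filter (fun m => z ≤ y / m), ((y / m : ℕ) : ℝ) ^ (3 / 4 : ℝ)) +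
        (∑ m ∈ (Sm z y).filter (fun m => z ≤ y / m), ((y / m : ℕ) : ℝ)) *
          (x : ℝ) ^ (-(1 / 64 : ℝ))) := by
    calc _ ≤ ∑ m ∈ (Sm z y).filter (fun m => z ≤ y / m), 2 * ((Real.log x) ^ (2 * D + 1) *
        ((y / m : ℕ) : ℝ) ^ (3 / 4 : ℝ) + ((y / m : ℕ) : ℝ) * (x : ℝ) ^ (-(1 / 64 : ℝ))) := by
          refine Finset.sum_le_sum fun m hm => ?_
          have h2 := hRB m hm m (Int.natAbs_natCast m)
          have h3 := hRB m hm (-(m : ℤ)) (by simp)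
          linarith only [h2, h3]
      _ = _ := by
          rw [← Finset.mul_sum, Finset.sum_add_distrib, ← Finset.mul_sum, ← Finset.sum_mul]
  have hsm := smooth_sum z y hz3 (by omega)
  have htail := hTail z y hz3 η h0 h1 (Real.sqrt y) (Real.sqrt_pos.2 hyr)
  have hsq : (Real.sqrt y) ^ (-η) = (y : ℝ) ^ (-(η / 2)) := by
    rw [Real.sqrt_eq_rpow, ← Real.rpow_mul hyr.le]
    congr 1
    ring
  rw [hsq] at htail
  have hharm : ∑ m ∈ (Sm z y).filter (fun m => z ≤ y / m), ((y / m : ℕ) : ℝ) ≤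
      y * (1 + Real.log y) := by
    calc ∑ m ∈ (Sm z y).filter (fun m => z ≤ y / m), ((y / m : ℕ) : ℝ)
        ≤ ∑ m ∈ Icc 1 y, (y : ℝ) * (m : ℝ)⁻¹ := by
          refine (Finset.sum_le_sum (g := fun m : ℕ => (y : ℝ) * (m : ℝ)⁻¹) fun m _ => ?_).trans
            (Finset.sum_le_sum_of_subset_of_nonneg ?_ fun _ _ _ => by (clear * - hy; positivity))
          · rw [← div_eq_mul_inv]; exact Nat.cast_div_le
          · intro m hm
            rw [mem_filter, mem_Sm] at hm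
            rw [mem_Icc]
            exact hm.1.1
      _ = y * ∑ m ∈ Icc 1 y, (m : ℝ)⁻¹ := by rw [Finset.mul_sum]
      _ ≤ _ := by
          refine mul_le_mul_of_nonneg_left ?_ hyr.le
          have h2 := harmonic_le_one_add_log y
          rw [harmonic_eq_sum_Icc] at h2
          push_cast at h2
          exact h2
  have hP := hPsi z y hz3 hy η h0 h1 hyz
  have hmax1 : C₁ ≤ max C₁ C₂ := le_max_left _ _
  have hmax2 : C₂ ≤ max C₁ C₂ := le_max_right _ _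
  have hP' : ((Sm z y).card : ℝ) ≤ Real.sqrt y + max C₁ C₂ * y * (Real.log z / Real.log y) *
        (z : ℝ) ^ η * (y : ℝ) ^ (-η) * Real.exp (3 * (z : ℝ) ^ η) := by
    refine hP.trans (add_le_add le_rfl ?_)
    have : 0 ≤ (y : ℝ) * (Real.log z / Real.log y) * (z : ℝ) ^ η * (y : ℝ) ^ (-η) *
      Real.exp (3 * (z : ℝ) ^ η) := by (clear * - hy hlogz hlogy hz3; positivity)
    calc C₁ * y * (Real.log z / Real.log y) * (z : ℝ) ^ η * (y : ℝ) ^ (-η) *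
          Real.exp (3 * (z : ℝ) ^ η) = C₁ * (y * (Real.log z / Real.log y) *
          (z : ℝ) ^ η * (y : ℝ) ^ (-η) * Real.exp (3 * (z : ℝ) ^ η)) := by ring
      _ ≤ max C₁ C₂ * (y * (Real.log z / Real.log y) *
          (z : ℝ) ^ η * (y : ℝ) ^ (-η) * Real.exp (3 * (z : ℝ) ^ η)) :=
          mul_le_mul_of_nonneg_right hmax1 this
      _ = _ := by ring
  have htail' : ∑ m ∈ (Sm z y).filter (fun m : ℕ => Real.sqrt y < m), 1 / (m : ℝ) ≤
      (y : ℝ) ^ (-(η / 2)) * (max C₁ C₂ * Real.log z * Real.exp (3 * (z : ℝ) ^ η)) := by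
    refine htail.trans ?_
    refine mul_le_mul_of_nonneg_left ?_ (by positivity)
    have : 0 ≤ Real.log z * Real.exp (3 * (z : ℝ) ^ η) := by positivity
    calc C₂ * Real.log z * Real.exp (3 * (z : ℝ) ^ η)
        = C₂ * (Real.log z * Real.exp (3 * (z : ℝ) ^ η)) := by ring
      _ ≤ max C₁ C₂ * (Real.log z * Real.exp (3 * (z : ℝ) ^ η)) :=
          mul_le_mul_of_nonneg_right hmax2 this
      _ = _ := by ring
  have hsm' : ∑ m ∈ (Sm z y).filter (fun m => z ≤ y / m), ((y / m : ℕ) : ℝ) ^ (3 / 4 : ℝ) ≤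
      4 * (y : ℝ) ^ (7 / 8 : ℝ) + y * (z : ℝ) ^ (-(1 / 4 : ℝ)) *
        ((y : ℝ) ^ (-(η / 2)) * (max C₁ C₂ * Real.log z * Real.exp (3 * (z : ℝ) ^ η))) := by
    refine hsm.trans (add_le_add le_rfl ?_)
    exact mul_le_mul_of_nonneg_left htail' (by positivity)
  refine hcov'.trans (add_le_add le_rfl (add_le_add ?_ ?_))
  · exact mul_le_mul_of_nonneg_left hP' (by norm_num)
  · refine hsum.trans (mul_le_mul_of_nonneg_left (add_le_add ?_ ?_) (by norm_num))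
    · exact mul_le_mul_of_nonneg_left hsm' (by positivity)
    · exact mul_le_mul_of_nonneg_right hharm (by positivity)

/-- Weighted theorem for integers `|a| ≤ y ≤ x ^ 3`. -/
theorem thmE_midW (δ D : ℝ) (hδ : 0 < δ) (hD : 0 ≤ D) :
    ∃ K : ℝ, 1 ≤ K ∧ ∃ c : ℝ, 0 < c ∧ c ≤ 1 / 16 ∧ ∃ x₀ : ℕ, ∀ x : ℕ, x₀ ≤ x → ∀ ρ : ℕ → ℝ, (∀ p, 0 ≤ ρ p ∧ ρ p ≤ 1) → ∀ y : ℕ,
      (Real.log x) ^ K ≤ y → y ≤ x ^ 3 →
      ((BEw ρ δ D x y).card : ℝ) ≤ y * Real.exp (-(c * ((Real.log y / Real.log (Real.log x)) *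
        Real.log (Real.log y / Real.log (Real.log x))))) := by
  obtain ⟨C, hC, x₁, hx₁⟩ := BEw_bound δ D hδ hD
  obtain ⟨C1, hC1⟩ : ∃ C1 : ℝ, C1 = 256 + 8 * (2 * D + 2) := ⟨_, rfl⟩
  have hC1' : 256 ≤ C1 := by rw [hC1]; linarith only [hD]
  obtain ⟨B, hB⟩ : ∃ B : ℝ, B = 2 * C1 := ⟨_, rfl⟩
  have hB512 : 512 ≤ B := by rw [hB]; linarith only [hD, hC1]
  have hB0 : 0 < B := by linarith
  obtain ⟨c, hc⟩ : ∃ c : ℝ, c = 1 / (16 * B) := ⟨_, rfl⟩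
  have hc0 : 0 < c := by rw [hc]; positivity
  have hc' : c ≤ 1 / 8192 := by
    rw [hc]
    apply one_div_le_one_div_of_le (by norm_num)
    linarith only [hD, hC1, hB]
  -- the size of K
  have hKpos : 0 ≤ Real.exp 12 * B := by positivity
  have hKC : 0 ≤ 12 * C / c := by positivity
  obtain ⟨K, hK⟩ : ∃ K : ℝ, K = B ^ 2 + Real.exp 12 * B + 16 * (2 * D + 2) + 12 * C / c + 32 :=
    ⟨_, rfl⟩
  have hB2 : 0 ≤ B ^ 2 := by positivity
  have hK1 : B ^ 2 ≤ K := by linarith only [hD, hKpos, hKC, hK]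
  have hK2 : Real.exp 12 * B ≤ K := by linarith only [hD, hKC, hK, hB2]
  have hK3 : 16 * (2 * D + 2) ≤ K := by linarith only [hKpos, hKC, hK, hB2]
  have hK4 : 12 * C / c ≤ K := by linarith only [hD, hKpos, hK, hB2]
  have hK5 : 32 ≤ K := by linarith only [hD, hKpos, hKC, hK, hB2]
  clear hK hKpos hKC hB2
  have hev := ((eventually_ge_atTop (max x₁ 3)).and (ev_log_rpow (Real.exp 3) 1 one_pos)).and
    ((ev_log_rpow 88 1 one_pos).and (ev_rpow 32 1 (1 / 128) (by norm_num)))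
  obtain ⟨x₀, hx₀⟩ := Filter.eventually_atTop.1 hev
  refine ⟨K, by linarith only [hD, hK3], c, hc0, by linarith only [hc'], x₀, fun x hx ρ hρ y hyK hyx => ?_⟩
  obtain ⟨⟨e1, e2⟩, e3, e4⟩ := hx₀ x hx
  rw [Real.rpow_one] at e2 e3 e4
  have hxx1 : x₁ ≤ x := (le_max_left _ _).trans e1
  have hx3 : 3 ≤ x := (le_max_right _ _).trans e1
  have hxr : (0 : ℝ) < x := by positivity
  clear hx₀ hev e1 hx
  obtain ⟨L, hL⟩ : ∃ L : ℝ, L = Real.log x := ⟨_, rfl⟩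
  rw [← hL] at e2 e3 e4 hyK ⊢
  obtain ⟨u, hu⟩ : ∃ u : ℝ, u = Real.log y / Real.log L := ⟨_, rfl⟩
  rw [← hu]
  obtain ⟨hlL3, hyr88, hlogy3, huK, hulog⟩ := u_facts x y L K u hL e2 e3 hK5 hyK hyx hu
  have hL0 : 0 < L := by linarith only [e3]
  have hlL : 0 < Real.log L := by linarith only [hlL3]
  -- the sieve level
  obtain ⟨hzC1, hz256, hzup, hLz, hz3, hz14⟩ := z_facts L C1 e3 hC1'
  rw [← hB] at hzup
  obtain ⟨z, hz⟩ : ∃ z : ℕ, z = ⌈L ^ C1⌉₊ := ⟨_, rfl⟩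
  rw [← hz] at hzC1 hz256 hzup hLz hz3 hz14
  obtain ⟨U, hU⟩ : ∃ U : ℝ, U = Real.log y / Real.log z := ⟨_, rfl⟩
  obtain ⟨hlogysqrt, hU0, hlogU, hη0, hη1, hlogu1, n3⟩ := U_facts y z L B u U K hB512 hL0 hlL hz3
    hzup hLz hz14 hyr88 hlogy3 hu hU hK1 hK2 huK
  have hy2 : 2 ≤ y := by
    have : (2 : ℝ) ≤ y := by linarith only [hyr88]
    exact_mod_cast this
  have hmain := hx₁ x hxx1 ρ hρ z (by rw [← hL]; exact hz256) y hy2 hyx hlogysqrt _ hη0 hη1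
  rw [← hL] at hmain
  exact mid_assemble x y z _ L C C1 B D K c u U hxr hL e3 e4 hC hC1 hB0 hc hc' hK3 hK4 hK5 hyK
    hzC1 hz3 hyr88 hlogy3 huK hulog hU hU0 hlogU hlogu1 n3 hmain

end Vale.Agent.P016
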